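import Vale.Agent.P022.H218.L3.Gal
import Vale.Agent.P022.H908.L3.GM

/-!
Helper218 (P022, P022-L3, row [FUNCTION FIELD]): generation of `MF Γ'` by a set with stabiliser
`Γ'`, and the instance `Γ = Γ_0(6)`, `Γ' = ±(Γ(2^M) ∩ Γ_1(3))`.
-/

open UpperHalfPlane ModularForm Polynomial CongruenceSubgroup
open scoped Manifold MatrixGroups ModularForm IntermediateField

noncomputable section

namespace Vale.Agent.P022.H218.L3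

/-- **generation**: a set of functions containing `p` whose stabiliser in `Γ` is contained in `Γ'`
generates `MF Γ'` over `ℂ`. -/
theorem gen_top {Γ Γ' : Subgroup SL(2, ℤ)} [Γ'.FiniteIndex]
    (hn : ∀ γ ∈ Γ, ∀ δ ∈ Γ', γ * δ * γ⁻¹ ∈ Γ') (p : MF Γ')
    (hp : MF Γ = IntermediateField.adjoin ℂ {(p : Mer)}) (R : Set (MF Γ')) (hpR : p ∈ R)
    (hst : ∀ γ ∈ Γ, (∀ r ∈ R, act γ (r : Mer) = r) → γ ∈ Γ') :
    IntermediateField.adjoin ℂ R = ⊤ := by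
  obtain ⟨h1, h2, h3, -, -⟩ := galois hn p hp
  have hle : ℂ⟮p⟯ ≤ IntermediateField.adjoin ℂ R :=
    IntermediateField.adjoin.mono ℂ _ _ (Set.singleton_subset_iff.2 hpR)
  have hfix : (IntermediateField.extendScalars hle).fixingSubgroup = ⊥ := by
    rw [eq_bot_iff]
    intro g hg
    rw [IntermediateField.mem_fixingSubgroup_iff] at hg
    obtain ⟨γ, hγ, hγg⟩ := h3 g
    have h4 : γ ∈ Γ' := by
      apply hst γ hγ
      intro r hr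
      rw [← hγg r, hg r (IntermediateField.subset_adjoin ℂ R hr)]
    rw [Subgroup.mem_bot]
    ext x
    rw [hγg x, act_eq_self x.2 h4]
    rfl
  have h5 := IsGalois.fixedField_fixingSubgroup (IntermediateField.extendScalars hle)
  rw [hfix, IntermediateField.fixedField_bot] at h5
  rw [eq_top_iff]
  intro x _
  have h6 : x ∈ IntermediateField.extendScalars hle := by
    rw [← h5]
    exact IntermediateField.mem_top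
  exact h6

/-! ### the group -/

open Vale.Agent.P022.H908

/-- `G(3, M) = ±(Γ(2^M) ∩ Γ_1(3))` -/
abbrev G3 (M : ℕ) : Subgroup SL(2, ℤ) := GM.G 3 M

theorem Gamma0_six_le : Gamma0 6 ≤ Gamma0 3 := by
  intro γ h
  rw [Gamma0_mem] at h ⊢
  rw [ZMod.intCast_zmod_eq_zero_iff_dvd] at h ⊢
  push_cast at h ⊢
  omega

theorem Gamma0_six_le_two : Gamma0 6 ≤ Gamma0 2 := by
  intro γ h
  rw [Gamma0_mem] at h ⊢
  rw [ZMod.intCast_zmod_eq_zero_iff_dvd] at h ⊢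
  push_cast at h ⊢
  omega

theorem G3_normal (M : ℕ) : ∀ γ ∈ Gamma0 6, ∀ δ ∈ G3 M, γ * δ * γ⁻¹ ∈ G3 M :=
  fun γ hγ δ hδ => GM.conj_mem_G M (Gamma0_six_le hγ) δ hδ

/-- the square of an element of `Γ_0(6)` is in `Γ(2)` -/
theorem sq_mem_B {γ : SL(2, ℤ)} (h : γ ∈ Gamma0 6) : γ ^ 2 ∈ GM.B 3 := by
  refine ⟨?_, (Gamma0 3).pow_mem (Gamma0_six_le h) 2⟩
  have h2 := Gamma0_six_le_two h
  rw [Gamma0_mem] at h2
  have hdet := congrArg (Int.cast : ℤ → ZMod 2) (γ.det_coe)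
  rw [Matrix.det_fin_two] at hdet
  push_cast at hdet
  rw [h2, mul_zero, sub_zero] at hdet
  have h3 : ∀ a d : ZMod 2, a * d = 1 → a = 1 ∧ d = 1 := by decide
  obtain ⟨ha, hd⟩ := h3 _ _ hdet
  have h4 : (2 : ZMod 2) = 0 := by decide
  show γ ^ 2 ∈ Gamma 2
  rw [Gamma_mem, pow_two, Matrix.SpecialLinearGroup.coe_mul]
  simp only [Matrix.mul_apply, Fin.sum_univ_two]
  push_cast
  rw [h2, ha, hd]
  refine ⟨by ring, ?_, by ring, by ring⟩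
  linear_combination ((γ 0 1 : ℤ) : ZMod 2) * h4

theorem G3_two (M : ℕ) : ∀ γ ∈ Gamma0 6, ∃ k, γ ^ 2 ^ k ∈ G3 (M + 1) := by
  intro γ hγ
  refine ⟨1 + (M + 1), ?_⟩
  rw [pow_add, pow_mul, pow_one]
  exact GM.le_pm _ (GM.pow_mem_K GM.units_three M (sq_mem_B hγ))

theorem G3_le (M : ℕ) : G3 (M + 1) ≤ Gamma0 6 := by
  intro γ h
  have h1 := GM.G_le_B h
  have h2 : γ ∈ Gamma 2 := h1.1
  have h3 : γ ∈ Gamma0 3 := h1.2
  rw [Gamma_mem] at h2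
  rw [Gamma0_mem] at h3 ⊢
  have h4 := h2.2.2.1
  rw [ZMod.intCast_zmod_eq_zero_iff_dvd] at h3 h4 ⊢
  push_cast at h3 h4 ⊢
  omega

/-- membership in `G(3, M)`: this is `InG 3 M` of `H138/L3/Defs` -/
theorem mem_G3 {M : ℕ} {γ : SL(2, ℤ)} : γ ∈ G3 M ↔
    ((3 * 2 ^ M : ℕ) : ℤ) ∣ γ 1 0 ∧ ((2 ^ M : ℕ) : ℤ) ∣ γ 0 1 ∧
      (((3 * 2 ^ M : ℕ) : ℤ) ∣ γ 1 1 - 1 ∨ ((3 * 2 ^ M : ℕ) : ℤ) ∣ γ 1 1 + 1) := by
  have hcop : IsCoprime (3 : ℤ) (2 ^ M : ℤ) :=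
    IsCoprime.pow_right (by rw [Int.isCoprime_iff_gcd_eq_one]; norm_num)
  have key : ∀ x : ℤ, ((3 * 2 ^ M : ℕ) : ℤ) ∣ x ↔ (3 : ℤ) ∣ x ∧ (2 ^ M : ℤ) ∣ x := by
    intro x
    push_cast
    constructor
    · intro h
      exact ⟨(Dvd.intro _ rfl).trans h, (Dvd.intro_left _ rfl).trans h⟩
    · rintro ⟨h1, h2⟩
      exact hcop.mul_dvd h1 h2
  have base : ∀ γ : SL(2, ℤ), γ ∈ GM.K 3 M ↔
      ((3 * 2 ^ M : ℕ) : ℤ) ∣ γ 1 0 ∧ ((2 ^ M : ℕ) : ℤ) ∣ γ 0 1 ∧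
        ((3 * 2 ^ M : ℕ) : ℤ) ∣ γ 1 1 - 1 := by
    intro γ
    have hdet := γ.det_coe
    rw [Matrix.det_fin_two] at hdet
    have e1 : γ ∈ Gamma (2 ^ M) ↔ ((2 ^ M : ℤ) ∣ γ 0 0 - 1 ∧ (2 ^ M : ℤ) ∣ γ 0 1 ∧
        (2 ^ M : ℤ) ∣ γ 1 0 ∧ (2 ^ M : ℤ) ∣ γ 1 1 - 1) := by
      rw [Gamma_mem]
      have c1 : ∀ x : ℤ, ((x : ℤ) : ZMod (2 ^ M)) = 1 ↔ (2 ^ M : ℤ) ∣ x - 1 := by
        intro x
        have := ZMod.intCast_zmod_eq_zero_iff_dvd (x - 1) (2 ^ M)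
        push_cast at this
        rw [← this, sub_eq_zero]
      have c0 : ∀ x : ℤ, ((x : ℤ) : ZMod (2 ^ M)) = 0 ↔ (2 ^ M : ℤ) ∣ x := by
        intro x
        have := ZMod.intCast_zmod_eq_zero_iff_dvd x (2 ^ M)
        push_cast at this
        exact this
      rw [c1, c0, c0, c1]
    have e2 : γ ∈ Gamma1 3 ↔ ((3 : ℤ) ∣ γ 0 0 - 1 ∧ (3 : ℤ) ∣ γ 1 1 - 1 ∧ (3 : ℤ) ∣ γ 1 0) := by
      rw [Gamma1_mem]
      have c1 : ∀ x : ℤ, ((x : ℤ) : ZMod 3) = 1 ↔ (3 : ℤ) ∣ x - 1 := by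
        intro x
        have := ZMod.intCast_zmod_eq_zero_iff_dvd (x - 1) 3
        push_cast at this
        rw [← this, sub_eq_zero]
      have c0 : ∀ x : ℤ, ((x : ℤ) : ZMod 3) = 0 ↔ (3 : ℤ) ∣ x := by
        intro x
        have := ZMod.intCast_zmod_eq_zero_iff_dvd x 3
        push_cast at this
        exact this
      rw [c1, c1, c0]
    have hg : GM.K 3 M = Gamma (2 ^ M) ⊓ Gamma1 3 := rfl
    rw [hg, Subgroup.mem_inf, e1, e2, key, key]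
    push_cast
    constructor
    · rintro ⟨⟨a1, a2, a3, a4⟩, b1, b2, b3⟩
      exact ⟨⟨b3, a3⟩, a2, b2, a4⟩
    · rintro ⟨⟨b3, a3⟩, a2, b2, a4⟩
      have f1 : γ 0 0 - 1 = γ 0 1 * γ 1 0 - γ 0 0 * (γ 1 1 - 1) := by linear_combination hdet
      refine ⟨⟨?_, a2, a3, a4⟩, ?_, b2, b3⟩
      · rw [f1]
        exact dvd_sub (Dvd.dvd.mul_left a3 _) (Dvd.dvd.mul_left a4 _)
      · rw [f1]
        exact dvd_sub (Dvd.dvd.mul_left b3 _) (Dvd.dvd.mul_left b2 _)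
  show (γ ∈ GM.K 3 M ∨ -γ ∈ GM.K 3 M) ↔ _
  rw [base γ, base (-γ)]
  have n10 : (-γ) 1 0 = -(γ 1 0) := by simp
  have n01 : (-γ) 0 1 = -(γ 0 1) := by simp
  have n11 : (-γ) 1 1 - 1 = -(γ 1 1 + 1) := by simp; ring
  rw [n10, n01, n11, dvd_neg, dvd_neg, dvd_neg]
  tauto

/-- the fields `fin`, `gal`, `two` and the automorphisms for `Γ_0(6)` and `G(3, M + 1)` -/
theorem galois_G3 (M : ℕ) (p : MF (G3 (M + 1)))
    (hp : MF (Gamma0 6) = IntermediateField.adjoin ℂ {(p : Mer)}) :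
    FiniteDimensional ℂ⟮p⟯ (MF (G3 (M + 1))) ∧ IsGalois ℂ⟮p⟯ (MF (G3 (M + 1))) ∧
      IsPGroup 2 (MF (G3 (M + 1)) ≃ₐ[ℂ⟮p⟯] MF (G3 (M + 1))) ∧
      (∀ g : MF (G3 (M + 1)) ≃ₐ[ℂ⟮p⟯] MF (G3 (M + 1)), ∃ γ ∈ Gamma0 6,
        ∀ x : MF (G3 (M + 1)), ((g x : MF (G3 (M + 1))) : Mer) = act γ x) ∧
      (∀ γ ∈ Gamma0 6, ∃ g : MF (G3 (M + 1)) ≃ₐ[ℂ⟮p⟯] MF (G3 (M + 1)),
        ∀ x : MF (G3 (M + 1)), ((g x : MF (G3 (M + 1))) : Mer) = act γ x) := by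
  obtain ⟨h1, h2, h3, h4, h5⟩ := galois (G3_normal (M + 1)) p hp
  exact ⟨h1, h2, h5 2 (G3_two M), h3, h4⟩

end Vale.Agent.P022.H218.L3
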