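import Mathlib

/-!
Helper218 (P022, P022-L3, row [FUNCTION FIELD], ambient half).

* `Hol` : the holomorphic functions on the upper half plane, `Mer := FractionRing Hol`;
* `act : SL(2, ℤ) →* (Mer ≃ₐ[ℂ] Mer)`, `act γ f = f ∘ γ⁻¹`;
* `IsMF Γ k f` : `f` is a modular form of weight `k` for `Γ` (`Γ` a subgroup of `SL(2, ℤ)` of finite
  index): holomorphic, slash invariant under `Γ`, all translates bounded at `i∞`;
* `MF Γ : IntermediateField ℂ Mer` : the quotients of modular forms of one weight.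
-/

open UpperHalfPlane ModularForm
open scoped Manifold MatrixGroups ModularForm

noncomputable section

namespace Vale.Agent.P022.H218.L3

/-- Holomorphic functions on the upper half plane. -/
def Hol : Subalgebra ℂ (ℍ → ℂ) where
  carrier := {f | MDifferentiable 𝓘(ℂ) 𝓘(ℂ) f}
  mul_mem' hf hg := hf.mul hg
  add_mem' hf hg := hf.add hg
  algebraMap_mem' _ := mdifferentiable_const

theorem mem_Hol {f : ℍ → ℂ} : f ∈ Hol ↔ MDifferentiable 𝓘(ℂ) 𝓘(ℂ) f := Iff.rfl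

instance : Nontrivial Hol := by
  refine ⟨⟨0, 1, fun h => ?_⟩⟩
  have := congrFun (congrArg Subtype.val h) UpperHalfPlane.I
  simp at this

instance : NoZeroDivisors Hol where
  eq_zero_or_eq_zero_of_mul_eq_zero {a b} h := by
    have h1 : (a : ℍ → ℂ) * b = 0 := by
      have := congrArg Subtype.val h
      simpa using this
    rcases (UpperHalfPlane.mul_eq_zero_iff a.2 b.2).1 h1 with h | h
    · exact Or.inl (Subtype.ext h)
    · exact Or.inr (Subtype.ext h)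

instance : IsDomain Hol := NoZeroDivisors.to_isDomain _

/-- The fraction field of the ring of holomorphic functions on the upper half plane. -/
abbrev Mer : Type := FractionRing Hol

/-- `f ∘ γ`. -/
theorem comp_mem (γ : SL(2, ℤ)) {f : ℍ → ℂ} (hf : f ∈ Hol) : (fun τ => f (γ • τ)) ∈ Hol := by
  have hpos : 0 < ((γ : GL (Fin 2) ℝ)).det.val := by
    simp
  exact (mem_Hol.1 hf).comp (UpperHalfPlane.mdifferentiable_smul (g := (γ : GL (Fin 2) ℝ)) hpos)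

/-- The action of `SL(2, ℤ)` on holomorphic functions: `actH γ f = f ∘ γ⁻¹`. -/
def actH : SL(2, ℤ) →* (Hol ≃ₐ[ℂ] Hol) where
  toFun γ :=
    { toFun := fun f => ⟨fun τ => (f : ℍ → ℂ) (γ⁻¹ • τ), comp_mem γ⁻¹ f.2⟩
      invFun := fun f => ⟨fun τ => (f : ℍ → ℂ) (γ • τ), comp_mem γ f.2⟩
      left_inv := fun f => Subtype.ext (funext fun τ => by simp)
      right_inv := fun f => Subtype.ext (funext fun τ => by simp)
      map_mul' := fun f g => rfl
      map_add' := fun f g => rfl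
      commutes' := fun c => rfl }
  map_one' := by
    ext f τ
    simp
  map_mul' γ δ := by
    ext f τ
    simp [mul_smul]

theorem actH_apply (γ : SL(2, ℤ)) (f : Hol) (τ : ℍ) :
    ((actH γ f : Hol) : ℍ → ℂ) τ = (f : ℍ → ℂ) (γ⁻¹ • τ) := rfl

/-- The action of `SL(2, ℤ)` on `Mer`. -/
def act : SL(2, ℤ) →* (Mer ≃ₐ[ℂ] Mer) :=
  (IsFractionRing.fieldEquivOfAlgEquivHom (A := ℂ) (B := Hol) ℂ Mer).comp actH

theorem act_algebraMap (γ : SL(2, ℤ)) (f : Hol) :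
    act γ (algebraMap Hol Mer f) = algebraMap Hol Mer (actH γ f) := by
  simp [act]

/-- The element of `Mer` given by a holomorphic function. -/
def inc (f : ℍ → ℂ) (hf : f ∈ Hol) : Mer := algebraMap Hol Mer ⟨f, hf⟩

theorem inc_eq_zero {f : ℍ → ℂ} (hf : f ∈ Hol) : inc f hf = 0 ↔ f = 0 := by
  unfold inc
  rw [IsFractionRing.to_map_eq_zero_iff]
  constructor
  · intro h; exact congrArg Subtype.val h
  · intro h; exact Subtype.ext h

/-! ### modular forms as functions -/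

/-- `f` is a modular form of weight `k` for the subgroup `Γ` of `SL(2, ℤ)`: holomorphic on `ℍ`,
slash invariant under `Γ`, and every translate by `SL(2, ℤ)` is bounded at `i∞`. -/
structure IsMF (Γ : Subgroup SL(2, ℤ)) (k : ℤ) (f : ℍ → ℂ) : Prop where
  hol : f ∈ Hol
  slash : ∀ γ ∈ Γ, f ∣[k] γ = f
  bdd : ∀ γ : SL(2, ℤ), IsBoundedAtImInfty (f ∣[k] γ)

/-- holomorphic and all translates bounded at `i∞` (no invariance). -/
def Bdd (k : ℤ) (f : ℍ → ℂ) : Prop := f ∈ Hol ∧ ∀ γ : SL(2, ℤ), IsBoundedAtImInfty (f ∣[k] γ)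

theorem slash_mem {f : ℍ → ℂ} (hf : f ∈ Hol) (k : ℤ) (γ : SL(2, ℤ)) : f ∣[k] γ ∈ Hol := by
  rw [SL_slash]
  exact MDifferentiable.slash hf k _

theorem Bdd.slash {k : ℤ} {f : ℍ → ℂ} (h : Bdd k f) (γ : SL(2, ℤ)) : Bdd k (f ∣[k] γ) :=
  ⟨slash_mem h.1 k γ, fun δ => by rw [← SlashAction.slash_mul]; exact h.2 _⟩

theorem Bdd.mul {k l : ℤ} {f g : ℍ → ℂ} (hf : Bdd k f) (hg : Bdd l g) : Bdd (k + l) (f * g) :=
  ⟨Hol.mul_mem hf.1 hg.1, fun γ => by rw [mul_slash_SL2]; exact (hf.2 γ).mul (hg.2 γ)⟩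

theorem Bdd.add {k : ℤ} {f g : ℍ → ℂ} (hf : Bdd k f) (hg : Bdd k g) : Bdd k (f + g) :=
  ⟨Hol.add_mem hf.1 hg.1, fun γ => by rw [SlashAction.add_slash]; exact (hf.2 γ).add (hg.2 γ)⟩

theorem Bdd.const (c : ℂ) : Bdd 0 (fun _ => c) :=
  ⟨mdifferentiable_const, fun γ => by
    have : (fun _ : ℍ => c) ∣[(0 : ℤ)] γ = Function.const ℍ c := is_invariant_const γ c
    rw [this]
    exact Filter.const_boundedAtFilter _ _⟩

theorem IsMF.toBdd {Γ : Subgroup SL(2, ℤ)} {k : ℤ} {f : ℍ → ℂ} (h : IsMF Γ k f) : Bdd k f :=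
  ⟨h.hol, h.bdd⟩

theorem Bdd.isMF {Γ : Subgroup SL(2, ℤ)} {k : ℤ} {f : ℍ → ℂ} (h : Bdd k f)
    (hs : ∀ γ ∈ Γ, f ∣[k] γ = f) : IsMF Γ k f := ⟨h.1, hs, h.2⟩

section IsMF

variable {Γ Γ' : Subgroup SL(2, ℤ)} {k l : ℤ} {f g : ℍ → ℂ}

theorem IsMF.mul (hf : IsMF Γ k f) (hg : IsMF Γ l g) : IsMF Γ (k + l) (f * g) :=
  (hf.toBdd.mul hg.toBdd).isMF fun γ hγ => by rw [mul_slash_SL2, hf.slash γ hγ, hg.slash γ hγ]

theorem IsMF.add (hf : IsMF Γ k f) (hg : IsMF Γ k g) : IsMF Γ k (f + g) :=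
  (hf.toBdd.add hg.toBdd).isMF fun γ hγ => by
    rw [SlashAction.add_slash, hf.slash γ hγ, hg.slash γ hγ]

theorem IsMF.const (c : ℂ) : IsMF Γ 0 (fun _ => c) :=
  (Bdd.const c).isMF fun γ _ => is_invariant_const γ c

theorem IsMF.smul (c : ℂ) (hf : IsMF Γ k f) : IsMF Γ k (c • f) := by
  have := (IsMF.const (Γ := Γ) c).mul hf
  rw [zero_add] at this
  exact this

theorem IsMF.zero : IsMF Γ k (0 : ℍ → ℂ) where
  hol := Hol.zero_mem
  slash γ _ := SlashAction.zero_slash _ _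
  bdd γ := by
    rw [SlashAction.zero_slash]
    exact Filter.const_boundedAtFilter _ (0 : ℂ)

theorem IsMF.neg (hf : IsMF Γ k f) : IsMF Γ k (-f) := by
  have := hf.smul (-1)
  rwa [neg_one_smul] at this

theorem IsMF.sub (hf : IsMF Γ k f) (hg : IsMF Γ k g) : IsMF Γ k (f - g) := by
  rw [sub_eq_add_neg]; exact hf.add hg.neg

theorem IsMF.pow (hf : IsMF Γ k f) (n : ℕ) : IsMF Γ (n * k) (f ^ n) := by
  induction n with
  | zero =>
    have := IsMF.const (Γ := Γ) 1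
    rw [pow_zero, Nat.cast_zero, zero_mul]
    exact this
  | succ n ih =>
    have := ih.mul hf
    rw [← pow_succ] at this
    convert this using 1
    push_cast
    ring

theorem IsMF.mono (h : Γ' ≤ Γ) (hf : IsMF Γ k f) : IsMF Γ' k f :=
  ⟨hf.hol, fun γ hγ => hf.slash γ (h hγ), hf.bdd⟩

/-- translates of forms are forms for the conjugate group -/
theorem IsMF.conj (hf : IsMF Γ k f) (δ : SL(2, ℤ)) (h : ∀ γ ∈ Γ', δ * γ * δ⁻¹ ∈ Γ) :
    IsMF Γ' k (f ∣[k] δ) :=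
  (hf.toBdd.slash δ).isMF fun γ hγ => by
    rw [← SlashAction.slash_mul, show δ * γ = (δ * γ * δ⁻¹) * δ by group, SlashAction.slash_mul,
      hf.slash _ (h γ hγ)]

end IsMF

/-! ### the function fields -/

theorem inc_mul {f g : ℍ → ℂ} (hf : f ∈ Hol) (hg : g ∈ Hol) :
    inc (f * g) (Hol.mul_mem hf hg) = inc f hf * inc g hg := by
  unfold inc
  rw [← map_mul]
  rfl

theorem inc_add {f g : ℍ → ℂ} (hf : f ∈ Hol) (hg : g ∈ Hol) :
    inc (f + g) (Hol.add_mem hf hg) = inc f hf + inc g hg := by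
  unfold inc
  rw [← map_add]
  rfl

theorem inc_injective {f g : ℍ → ℂ} (hf : f ∈ Hol) (hg : g ∈ Hol) (h : inc f hf = inc g hg) :
    f = g := by
  unfold inc at h
  exact congrArg Subtype.val (IsFractionRing.injective Hol Mer h)

theorem inc_const (c : ℂ) : inc (fun _ => c) (Bdd.const c).1 = algebraMap ℂ Mer c := by
  unfold inc
  rw [IsScalarTower.algebraMap_apply ℂ Hol Mer]
  rfl

theorem inc_congr {f g : ℍ → ℂ} (hf : f ∈ Hol) (h : f = g) : inc f hf = inc g (h ▸ hf) := by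
  subst h; rfl

/-- `MF Γ`: the quotients of two modular forms of the same weight for `Γ`. -/
def MF (Γ : Subgroup SL(2, ℤ)) : IntermediateField ℂ Mer where
  carrier := {x | ∃ (k : ℤ) (g h : ℍ → ℂ) (hg : IsMF Γ k g) (hh : IsMF Γ k h),
    h ≠ 0 ∧ x = inc g hg.hol / inc h hh.hol}
  mul_mem' := by
    rintro _ _ ⟨k, g, h, hg, hh, h0, rfl⟩ ⟨k', g', h', hg', hh', h0', rfl⟩
    refine ⟨k + k', g * g', h * h', hg.mul hg', hh.mul hh', ?_, ?_⟩
    · intro h1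
      rcases (UpperHalfPlane.mul_eq_zero_iff hh.hol hh'.hol).1 h1 with h | h
      · exact h0 h
      · exact h0' h
    · rw [inc_mul hg.hol hg'.hol, inc_mul hh.hol hh'.hol, div_mul_div_comm]
  add_mem' := by
    rintro _ _ ⟨k, g, h, hg, hh, h0, rfl⟩ ⟨k', g', h', hg', hh', h0', rfl⟩
    have e : IsMF Γ (k + k') (h * g') := hh.mul hg'
    refine ⟨k + k', g * h' + h * g', h * h', (hg.mul hh').add e, hh.mul hh', ?_, ?_⟩
    · intro h1
      rcases (UpperHalfPlane.mul_eq_zero_iff hh.hol hh'.hol).1 h1 with h | h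
      · exact h0 h
      · exact h0' h
    · have h1 : inc h hh.hol ≠ 0 := fun h => h0 ((inc_eq_zero hh.hol).1 h)
      have h2 : inc h' hh'.hol ≠ 0 := fun h => h0' ((inc_eq_zero hh'.hol).1 h)
      rw [inc_mul hh.hol hh'.hol, inc_add (hg.mul hh').hol e.hol, inc_mul hg.hol hh'.hol,
        inc_mul hh.hol hg'.hol, div_add_div _ _ h1 h2]
  algebraMap_mem' c := by
    refine ⟨0, fun _ => c, fun _ => 1, IsMF.const c, IsMF.const 1, ?_, ?_⟩
    · intro h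
      have := congrFun h UpperHalfPlane.I
      simp at this
    · rw [inc_const c, inc_const 1, map_one, div_one]
  inv_mem' := by
    rintro _ ⟨k, g, h, hg, hh, h0, rfl⟩
    by_cases hg0 : g = 0
    · subst hg0
      refine ⟨0, fun _ => 0, fun _ => 1, IsMF.const 0, IsMF.const 1, ?_, ?_⟩
      · intro h
        have := congrFun h UpperHalfPlane.I
        simp at this
      · rw [inc_const 0, inc_const 1, (inc_eq_zero hg.hol).2 rfl]
        simp
    · exact ⟨k, h, g, hh, hg, hg0, by rw [inv_div]⟩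

theorem mem_MF {Γ : Subgroup SL(2, ℤ)} {x : Mer} :
    x ∈ MF Γ ↔ ∃ (k : ℤ) (g h : ℍ → ℂ) (hg : IsMF Γ k g) (hh : IsMF Γ k h),
      h ≠ 0 ∧ x = inc g hg.hol / inc h hh.hol := Iff.rfl

theorem MF_mono {Γ' Γ : Subgroup SL(2, ℤ)} (h : Γ' ≤ Γ) : MF Γ ≤ MF Γ' := by
  rintro _ ⟨k, g, h', hg, hh, h0, rfl⟩
  exact ⟨k, g, h', hg.mono h, hh.mono h, h0, rfl⟩

theorem slash_ne_zero {k : ℤ} {h : ℍ → ℂ} (h0 : h ≠ 0) (γ : SL(2, ℤ)) : h ∣[k] γ ≠ 0 := by
  rwa [Ne, SlashAction.slash_eq_zero_iff]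

/-- the action on a quotient of two functions of the same weight -/
theorem act_div (γ : SL(2, ℤ)) (k : ℤ) {g h : ℍ → ℂ} (hg : g ∈ Hol) (hh : h ∈ Hol) (h0 : h ≠ 0) :
    act γ (inc g hg / inc h hh) =
      inc (g ∣[k] γ⁻¹) (slash_mem hg k _) / inc (h ∣[k] γ⁻¹) (slash_mem hh k _) := by
  have e1 : act γ (inc g hg) = inc (fun τ => g (γ⁻¹ • τ)) (comp_mem γ⁻¹ hg) := by
    unfold inc
    rw [act_algebraMap]
    rfl
  have e2 : act γ (inc h hh) = inc (fun τ => h (γ⁻¹ • τ)) (comp_mem γ⁻¹ hh) := by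
    unfold inc
    rw [act_algebraMap]
    rfl
  have n1 : inc (fun τ => h (γ⁻¹ • τ)) (comp_mem γ⁻¹ hh) ≠ 0 := by
    rw [← e2]
    intro h'
    rw [map_eq_zero_iff _ (act γ).injective, inc_eq_zero] at h'
    exact h0 h'
  have n2 : inc (h ∣[k] γ⁻¹) (slash_mem hh k _) ≠ 0 := by
    intro h'
    exact slash_ne_zero h0 _ ((inc_eq_zero _).1 h')
  rw [map_div₀, e1, e2, div_eq_div_iff n1 n2, ← inc_mul, ← inc_mul]
  apply inc_congr
  funext τ
  simp only [Pi.mul_apply, SL_slash_apply]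
  ring

theorem act_mem {Γ Γ' : Subgroup SL(2, ℤ)} (δ : SL(2, ℤ)) (h : ∀ γ ∈ Γ', δ⁻¹ * γ * δ ∈ Γ) {x : Mer}
    (hx : x ∈ MF Γ) : act δ x ∈ MF Γ' := by
  obtain ⟨k, g, h', hg, hh, h0, rfl⟩ := hx
  refine ⟨k, g ∣[k] δ⁻¹, h' ∣[k] δ⁻¹, hg.conj δ⁻¹ (by simpa using h), hh.conj δ⁻¹ (by simpa using h),
    slash_ne_zero h0 _, act_div δ k hg.hol hh.hol h0⟩

theorem act_eq_self {Γ : Subgroup SL(2, ℤ)} {x : Mer} (hx : x ∈ MF Γ) {γ : SL(2, ℤ)} (hγ : γ ∈ Γ) :
    act γ x = x := by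
  obtain ⟨k, g, h', hg, hh, h0, rfl⟩ := hx
  rw [act_div γ k hg.hol hh.hol h0]
  congr 1
  · exact (inc_congr hg.hol (hg.slash _ (Γ.inv_mem hγ)).symm).symm
  · exact (inc_congr hh.hol (hh.slash _ (Γ.inv_mem hγ)).symm).symm

/-! ### the norm -/

/-- the translates of a form, indexed by the cosets -/
def tr {Γ : Subgroup SL(2, ℤ)} {k : ℤ} {h : ℍ → ℂ} (hh : IsMF Γ k h) :
    SL(2, ℤ) ⧸ Γ → (ℍ → ℂ) :=
  Quotient.lift (fun s : SL(2, ℤ) => h ∣[k] s⁻¹) (by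
    intro s s' e
    have e1 : s⁻¹ * s' ∈ Γ := QuotientGroup.leftRel_apply.1 e
    show h ∣[k] s⁻¹ = h ∣[k] s'⁻¹
    rw [show s'⁻¹ = (s⁻¹ * s')⁻¹ * s⁻¹ by group, SlashAction.slash_mul,
      hh.slash _ (Γ.inv_mem e1)])

theorem tr_mk {Γ : Subgroup SL(2, ℤ)} {k : ℤ} {h : ℍ → ℂ} (hh : IsMF Γ k h) (s : SL(2, ℤ)) :
    tr hh (s : SL(2, ℤ) ⧸ Γ) = h ∣[k] s⁻¹ := rfl

theorem tr_slash {Γ : Subgroup SL(2, ℤ)} {k : ℤ} {h : ℍ → ℂ} (hh : IsMF Γ k h) (γ : SL(2, ℤ))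
    (q : SL(2, ℤ) ⧸ Γ) : tr hh q ∣[k] γ = tr hh (γ⁻¹ • q) := by
  induction q using QuotientGroup.induction_on with
  | H s =>
    rw [MulAction.Quotient.smul_mk, tr_mk, tr_mk, ← SlashAction.slash_mul]
    congr 1
    simp

theorem prod_slash_SL {ι : Type*} {k : ℤ} (γ : SL(2, ℤ)) (f : ι → ℍ → ℂ) (s : Finset ι) :
    (∏ i ∈ s, f i) ∣[k * s.card] γ = ∏ i ∈ s, f i ∣[k] γ := by
  rw [SL_slash, ModularForm.prod_slash]
  simp [SL_slash]

theorem Bdd.prod {ι : Type*} {k : ℤ} {f : ι → ℍ → ℂ} (s : Finset ι) (h : ∀ i ∈ s, Bdd k (f i)) :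
    Bdd (k * s.card) (∏ i ∈ s, f i) := by
  classical
  induction s using Finset.induction_on with
  | empty =>
    have := Bdd.const 1
    rw [Finset.prod_empty, Finset.card_empty, Nat.cast_zero, mul_zero]
    exact this
  | insert a s ha ih =>
    have := (h a (Finset.mem_insert_self _ _)).mul (ih fun i hi => h i (Finset.mem_insert_of_mem hi))
    rw [Finset.prod_insert ha, Finset.card_insert_of_notMem ha]
    convert this using 1
    push_cast
    ring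

/-- The norm of a form for `Γ` to level one, and the complementary factor. -/
theorem exists_norm {Γ : Subgroup SL(2, ℤ)} [Γ.FiniteIndex] {k : ℤ} {h : ℍ → ℂ} (hh : IsMF Γ k h)
    (h0 : h ≠ 0) : ∃ (m : ℤ) (h' : ℍ → ℂ), Bdd m h' ∧ h * h' ≠ 0 ∧ IsMF ⊤ (k + m) (h * h') := by
  classical
  let : Fintype (SL(2, ℤ) ⧸ Γ) := Fintype.ofFinite _
  set q0 : SL(2, ℤ) ⧸ Γ := ((1 : SL(2, ℤ)) : SL(2, ℤ) ⧸ Γ) with hq0
  have ht0 : tr hh q0 = h := by
    rw [hq0, tr_mk]; simp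
  have htB : ∀ q, Bdd k (tr hh q) := by
    intro q
    induction q using QuotientGroup.induction_on with
    | H s => rw [tr_mk]; exact hh.toBdd.slash _
  have htn : ∀ q, tr hh q ≠ 0 := by
    intro q
    induction q using QuotientGroup.induction_on with
    | H s => rw [tr_mk]; exact slash_ne_zero h0 _
  have hprod : h * ∏ q ∈ Finset.univ.erase q0, tr hh q = ∏ q, tr hh q := by
    rw [← Finset.mul_prod_erase Finset.univ (tr hh) (Finset.mem_univ q0), ht0]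
  refine ⟨k * (Finset.univ.erase q0).card, ∏ q ∈ Finset.univ.erase q0, tr hh q,
    Bdd.prod _ fun q _ => htB q, ?_, ?_⟩
  · rw [hprod]
    intro h1
    obtain ⟨q, -, hq⟩ := (UpperHalfPlane.prod_eq_zero_iff (fun q _ => (htB q).1)).1 h1
    exact htn q hq
  · have hcard : k + k * (Finset.univ.erase q0).card
        = k * (Finset.univ : Finset (SL(2, ℤ) ⧸ Γ)).card := by
      rw [← Finset.card_erase_add_one (Finset.mem_univ q0)]
      push_cast
      ring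
    rw [hprod, hcard]
    refine (Bdd.prod _ fun q _ => htB q).isMF fun γ _ => ?_
    rw [prod_slash_SL]
    simp_rw [tr_slash hh γ]
    exact Fintype.prod_equiv (MulAction.toPerm γ⁻¹) _ _ fun q => rfl

/-- every element of the field of `Γ'` is a holomorphic function bounded at the cusps divided by a
form of level one -/
theorem exists_rep {Γ : Subgroup SL(2, ℤ)} [Γ.FiniteIndex] {x : Mer} (hx : x ∈ MF Γ) :
    ∃ (k : ℤ) (g h : ℍ → ℂ) (hg : Bdd k g) (hh : IsMF ⊤ k h),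
      h ≠ 0 ∧ x = inc g hg.1 / inc h hh.hol := by
  obtain ⟨k, g, h, hg, hh, h0, rfl⟩ := hx
  obtain ⟨m, h', hB, hn, hM⟩ := exists_norm hh h0
  refine ⟨k + m, g * h', h * h', hg.toBdd.mul hB, hM, hn, ?_⟩
  have n1 : inc h hh.hol ≠ 0 := fun h => h0 ((inc_eq_zero hh.hol).1 h)
  have n2 : inc h' hB.1 ≠ 0 := by
    intro e
    rw [inc_eq_zero] at e
    exact hn (by rw [e, mul_zero])
  rw [inc_mul hg.hol hB.1, inc_mul hh.hol hB.1, mul_div_mul_right _ _ n2]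

/-- **The Galois descent**: an element of the field of some finite index subgroup which is fixed by
`Γ` lies in the field of `Γ`; moreover the denominator can be chosen of level one. -/
theorem exists_rep_of_fixed {Γ' : Subgroup SL(2, ℤ)} [Γ'.FiniteIndex] (Γ : Subgroup SL(2, ℤ))
    {x : Mer} (hx : x ∈ MF Γ') (hfix : ∀ γ ∈ Γ, act γ x = x) :
    ∃ (k : ℤ) (g h : ℍ → ℂ) (hg : IsMF Γ k g) (hh : IsMF ⊤ k h),
      h ≠ 0 ∧ x = inc g hg.hol / inc h hh.hol := by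
  obtain ⟨k, g, h, hg, hh, h0, hxe⟩ := exists_rep hx
  have n1 : inc h hh.hol ≠ 0 := fun h => h0 ((inc_eq_zero hh.hol).1 h)
  refine ⟨k, g, h, hg.isMF fun γ hγ => ?_, hh, h0, hxe⟩
  have h1 := hfix γ⁻¹ (Γ.inv_mem hγ)
  rw [hxe, act_div γ⁻¹ k hg.1 hh.hol h0] at h1
  have e2 : inc (h ∣[k] γ⁻¹⁻¹) (slash_mem hh.hol k _) = inc h hh.hol :=
    (inc_congr hh.hol (by rw [hh.slash _ (Subgroup.mem_top _)])).symm
  rw [e2, div_left_inj' n1] at h1
  have := inc_injective _ _ h1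
  rwa [inv_inv] at this

theorem mem_MF_of_fixed {Γ' : Subgroup SL(2, ℤ)} [Γ'.FiniteIndex] (Γ : Subgroup SL(2, ℤ))
    {x : Mer} (hx : x ∈ MF Γ') (hfix : ∀ γ ∈ Γ, act γ x = x) : x ∈ MF Γ := by
  obtain ⟨k, g, h, hg, hh, h0, hxe⟩ := exists_rep_of_fixed Γ hx hfix
  exact ⟨k, g, h, hg, hh.mono le_top, h0, hxe⟩

/-- `MF Γ` is the fixed field of `Γ` in `MF Γ'`. -/
theorem mem_MF_iff {Γ' : Subgroup SL(2, ℤ)} [Γ'.FiniteIndex] (Γ : Subgroup SL(2, ℤ))
    (x : Mer) (hx : x ∈ MF Γ') : x ∈ MF Γ ↔ ∀ γ ∈ Γ, act γ x = x :=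
  ⟨fun h _ hγ => act_eq_self h hγ, mem_MF_of_fixed Γ hx⟩

end Vale.Agent.P022.H218.L3
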