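import Vale.Agent.P022.H218.L3.Amb

/-!
Helper218 (P022, P022-L3, row [FUNCTION FIELD], degree half).

* `jM : Mer` : the modular invariant `E₄ ^ 3 / Δ` (= `1728 *` Klein's `J`, `= q⁻¹ + 744 + ..`);
  `MF ⊤ = ℂ⟮jM⟯`;
* `MF_eq_adjoin` : if `p ∈ MF Γ` and `jM = N(p) / D(p)` with `N`, `D` coprime polynomials and
  `Γ.index ≤ max (deg N) (deg D)` then `MF Γ = ℂ⟮p⟯`.
-/

open UpperHalfPlane ModularForm ModularFormClass EisensteinSeries Polynomial
open scoped Manifold MatrixGroups ModularForm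

noncomputable section

namespace Vale.Agent.P022.H218.L3

/-! ### bridge to bundled forms -/

/-- level one forms as bundled forms -/
def toMF1 {k : ℤ} {f : ℍ → ℂ} (h : IsMF ⊤ k f) : ModularForm 𝒮ℒ k where
  toFun := f
  slash_action_eq' := by
    rintro _ ⟨γ, rfl⟩
    exact h.slash γ (Subgroup.mem_top _)
  holo' := h.hol
  bdd_at_cusps' {c} hc := by
    rw [OnePoint.isBoundedAt_iff_forall_SL2Z hc]
    exact fun γ _ => h.bdd γ

theorem coe_toMF1 {k : ℤ} {f : ℍ → ℂ} (h : IsMF ⊤ k f) : ⇑(toMF1 h) = f := rfl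

/-- forms for an arithmetic group -/
theorem isMF_of_form (Γ : Subgroup SL(2, ℤ)) [(Γ.map (Matrix.SpecialLinearGroup.mapGL ℝ)).IsArithmetic]
    {k : ℤ} (f : ModularForm (Γ.map (Matrix.SpecialLinearGroup.mapGL ℝ)) k) : IsMF Γ k f where
  hol := f.holo'
  slash γ hγ := f.slash_action_eq' _ ⟨γ, hγ, rfl⟩
  bdd γ := by
    have hc : IsCusp ((Matrix.SpecialLinearGroup.mapGL ℝ γ) • OnePoint.infty)
        (Γ.map (Matrix.SpecialLinearGroup.mapGL ℝ)) := by
      rw [Subgroup.IsArithmetic.isCusp_iff_isCusp_SL2Z, isCusp_SL2Z_iff']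
      exact ⟨γ, rfl⟩
    exact f.bdd_at_cusps' hc _ rfl

theorem isMF_top {k : ℤ} (f : ModularForm 𝒮ℒ k) : IsMF ⊤ k f where
  hol := f.holo'
  slash γ _ := f.slash_action_eq' _ ⟨γ, rfl⟩
  bdd γ := by
    have : (⇑f ∣[k] γ) = f := f.slash_action_eq' _ ⟨γ, rfl⟩
    rw [this]
    exact ModularFormClass.bdd_at_infty f

/-- the modular invariant as a function -/
def jf (τ : ℍ) : ℂ := E₄ τ ^ 3 / discriminant τ

theorem isMF_E4 : IsMF ⊤ 4 E₄ := isMF_top E₄

theorem isMF_disc : IsMF ⊤ 12 discriminant := by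
  have := isMF_top (CuspForm.discriminant : ModularForm 𝒮ℒ 12)
  exact this

theorem disc_ne : (discriminant : ℍ → ℂ) ≠ 0 := fun h =>
  discriminant_ne_zero UpperHalfPlane.I (congrFun h _)

theorem jf_mem : jf ∈ Hol := by
  have h1 : (fun τ => E₄ τ ^ 3) ∈ Hol := (isMF_E4.pow 3).hol
  exact MDifferentiable.div h1 isMF_disc.hol discriminant_ne_zero

/-- the modular invariant in `Mer` -/
def jM : Mer := inc jf jf_mem

theorem E4_pow (τ : ℍ) : E₄ τ ^ 3 = discriminant τ * jf τ := by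
  unfold jf
  rw [mul_div_cancel₀ _ (discriminant_ne_zero τ)]

theorem isMF_E43 : IsMF ⊤ 12 (fun τ => E₄ τ ^ 3) := by
  have h := isMF_E4.pow 3
  have e : ((3 : ℕ) : ℤ) * 4 = 12 := by norm_num
  rw [e] at h
  exact h

theorem jM_mem : jM ∈ MF ⊤ := by
  refine ⟨12, fun τ => E₄ τ ^ 3, discriminant, isMF_E43, isMF_disc, disc_ne, ?_⟩
  have n : inc discriminant isMF_disc.hol ≠ 0 := fun h => disc_ne ((inc_eq_zero _).1 h)
  rw [eq_div_iff n]
  unfold jM
  rw [← inc_mul]
  apply inc_congr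
  funext τ
  rw [Pi.mul_apply, mul_comm, ← E4_pow]

/-- the constant coefficient trick: weight `12 m`, level one -/
theorem exists_poly_j (m : ℕ) : ∀ f : ModularForm 𝒮ℒ (12 * m), ∃ P : ℂ[X], P.natDegree ≤ m ∧
    ∀ τ, f τ = discriminant τ ^ m * P.eval (jf τ) := by
  induction m with
  | zero =>
    intro f
    let : ModularFormClass (ModularForm 𝒮ℒ (12 * (0 : ℕ))) 𝒮ℒ 0 := by
      have h0 : (12 * ((0 : ℕ) : ℤ)) = 0 := by norm_num
      rw [h0]; infer_instance
    obtain ⟨c, hc⟩ := ModularFormClass.levelOne_weight_zero_const f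
    exact ⟨C c, by simp, fun τ => by rw [hc]; simp⟩
  | succ m ih =>
    intro f
    have hw : ((3 * (m + 1) : ℕ) : ℤ) * 4 = 12 * ((m + 1 : ℕ) : ℤ) := by push_cast; ring
    set E : ModularForm 𝒮ℒ (12 * ((m + 1 : ℕ) : ℤ)) := ModularForm.mcast hw (E₄.pow (3 * (m + 1)))
      with hE
    have hEc : (E : ℍ → ℂ) = (E₄ : ℍ → ℂ) ^ (3 * (m + 1)) := by
      rw [hE, coe_mcast, ModularForm.coe_pow]
    have hE0 : (qExpansion 1 E).coeff 0 = 1 := by
      rw [hEc, ← ModularForm.coe_pow, ModularForm.qExpansion_pow one_pos one_mem_strictPeriods_SL]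
      rw [PowerSeries.coeff_zero_eq_constantCoeff, map_pow,
        ← PowerSeries.coeff_zero_eq_constantCoeff, E_qExpansion_coeff_zero _ ⟨2, rfl⟩, one_pow]
    set c := (qExpansion 1 f).coeff 0 with hcdef
    set g : ModularForm 𝒮ℒ (12 * ((m + 1 : ℕ) : ℤ)) := f - c • E with hg
    have hg0 : (qExpansion 1 g).coeff 0 = 0 := by
      rw [hg, FunLike.coe_sub, ModularForm.qExpansion_sub one_pos one_mem_strictPeriods_SL,
        FunLike.coe_smul, ModularForm.qExpansion_smul one_pos one_mem_strictPeriods_SL, map_sub,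
        PowerSeries.coeff_smul, hE0]
      simp [hcdef]
    have hw' : 12 * ((m + 1 : ℕ) : ℤ) - 12 = 12 * (m : ℤ) := by push_cast; ring
    obtain ⟨P, hP, hPe⟩ := ih (ModularForm.mcast hw' (CuspForm.discriminantEquiv (toCuspForm g hg0)))
    refine ⟨C c * X ^ (m + 1) + P, ?_, fun τ => ?_⟩
    · refine (natDegree_add_le _ _).trans (max_le ?_ (hP.trans (Nat.le_succ m)))
      exact (natDegree_C_mul_X_pow_le c (m + 1))
    · have h1 := hPe τ
      rw [mcast_apply] at h1
      have h2 := discriminant_mul_discriminantEquiv_apply (toCuspForm g hg0) τ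
      rw [h1, toCuspForm_apply, hg, sub_apply, smul_apply, hEc] at h2
      have h3 : ((E₄ : ℍ → ℂ) ^ (3 * (m + 1))) τ = (discriminant τ * jf τ) ^ (m + 1) := by
        rw [Pi.pow_apply, pow_mul, E4_pow]
      rw [h3] at h2
      simp only [eval_add, eval_mul, eval_C, eval_pow, eval_X]
      linear_combination -h2

/-- polynomials in `jM` -/
theorem aeval_jM (P : ℂ[X]) : ∃ h : (fun τ => P.eval (jf τ)) ∈ Hol,
    aeval jM P = inc (fun τ => P.eval (jf τ)) h := by
  have key : ∀ τ, ((aeval (⟨jf, jf_mem⟩ : Hol) P : Hol) : ℍ → ℂ) τ = P.eval (jf τ) := by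
    intro τ
    have h1 : ((aeval (⟨jf, jf_mem⟩ : Hol) P : Hol) : ℍ → ℂ) = aeval jf P := by
      have := Polynomial.aeval_algHom_apply Hol.val (⟨jf, jf_mem⟩ : Hol) P
      exact this.symm
    rw [h1]
    have h2 := Polynomial.aeval_algHom_apply (Pi.evalAlgHom ℂ (fun _ : ℍ => ℂ) τ) jf P
    have h3 : (Pi.evalAlgHom ℂ (fun _ : ℍ => ℂ) τ) (aeval jf P) = (aeval jf P) τ := rfl
    rw [h3] at h2
    rw [← h2]
    simp [Polynomial.aeval_def, Polynomial.eval₂_eq_eval_map]
  have hfun : ((aeval (⟨jf, jf_mem⟩ : Hol) P : Hol) : ℍ → ℂ) = fun τ => P.eval (jf τ) :=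
    funext key
  have hmem : (fun τ => P.eval (jf τ)) ∈ Hol := by
    rw [← hfun]
    exact Subtype.prop _
  refine ⟨hmem, ?_⟩
  have h4 : aeval jM P = algebraMap Hol Mer (aeval (⟨jf, jf_mem⟩ : Hol) P) := by
    unfold jM inc
    rw [Polynomial.aeval_algebraMap_apply]
  rw [h4]
  unfold inc
  congr 1
  exact Subtype.ext hfun

/-- level one forms of weight `12 m` -/
theorem exists_poly_jM (m : ℕ) {f : ℍ → ℂ} (hf : IsMF ⊤ (12 * m) f) : ∃ P : ℂ[X],
    P.natDegree ≤ m ∧ inc f hf.hol = inc discriminant isMF_disc.hol ^ m * aeval jM P := by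
  obtain ⟨P, hP, hPe⟩ := exists_poly_j m (toMF1 hf)
  refine ⟨P, hP, ?_⟩
  obtain ⟨hm, hPa⟩ := aeval_jM P
  have hpow : ∀ m : ℕ, ∃ h : (discriminant : ℍ → ℂ) ^ m ∈ Hol,
      inc discriminant isMF_disc.hol ^ m = inc (discriminant ^ m) h := by
    intro m
    refine ⟨Hol.pow_mem isMF_disc.hol m, ?_⟩
    unfold inc
    rw [← map_pow]
    rfl
  obtain ⟨h5, h6⟩ := hpow m
  rw [hPa, h6, ← inc_mul]
  apply inc_congr
  funext τ
  have := hPe τ
  rw [coe_toMF1] at this
  exact this

theorem weight_nonneg {k : ℤ} {h : ℍ → ℂ} (hh : IsMF ⊤ k h) (h0 : h ≠ 0) : 0 ≤ k := by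
  by_contra hk
  exact h0 (ModularFormClass.levelOne_neg_weight_eq_zero (not_le.1 hk) (toMF1 hh))

theorem MF_top_rep {x : Mer} (hx : x ∈ MF ⊤) : ∃ P Q : ℂ[X], aeval jM Q ≠ 0 ∧
    x = aeval jM P / aeval jM Q := by
  obtain ⟨k, g, h, hg, hh, h0, rfl⟩ := hx
  obtain ⟨n, rfl⟩ := Int.eq_ofNat_of_zero_le (weight_nonneg hh h0)
  have n1 : inc h hh.hol ≠ 0 := fun h => h0 ((inc_eq_zero hh.hol).1 h)
  have a1 : IsMF ⊤ (12 * n) (g * h ^ 11) := by
    have := hg.mul (hh.pow 11)
    convert this using 1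
    push_cast; ring
  have a2 : IsMF ⊤ (12 * n) (h * h ^ 11) := by
    have := hh.mul (hh.pow 11)
    convert this using 1
    push_cast; ring
  obtain ⟨P, -, hP⟩ := exists_poly_jM n a1
  obtain ⟨Q, -, hQ⟩ := exists_poly_jM n a2
  have nd : inc discriminant isMF_disc.hol ≠ 0 := fun h => disc_ne ((inc_eq_zero _).1 h)
  have n3 : inc (h ^ 11) (hh.pow 11).hol ≠ 0 := by
    intro e
    rw [inc_eq_zero] at e
    apply h0
    funext τ
    have := congrFun e τ
    simpa using this
  rw [inc_mul hg.hol (hh.pow 11).hol] at hP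
  rw [inc_mul hh.hol (hh.pow 11).hol] at hQ
  have hQ0 : aeval jM Q ≠ 0 := by
    intro e
    rw [e, mul_zero] at hQ
    exact mul_ne_zero n1 n3 hQ
  refine ⟨P, Q, hQ0, ?_⟩
  rw [← mul_div_mul_right _ _ n3, hP, hQ, mul_div_mul_left _ _ (pow_ne_zero n nd)]

theorem MF_top : MF ⊤ = IntermediateField.adjoin ℂ {jM} := by
  apply le_antisymm
  · intro x hx
    obtain ⟨P, Q, -, rfl⟩ := MF_top_rep hx
    exact div_mem
      (IntermediateField.algebra_adjoin_le_adjoin _ _ (Polynomial.aeval_mem_adjoin_singleton _ _))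
      (IntermediateField.algebra_adjoin_le_adjoin _ _ (Polynomial.aeval_mem_adjoin_singleton _ _))
  · rw [IntermediateField.adjoin_simple_le_iff]
    exact jM_mem

/-! ### the degree -/

/-- the conjugates of an element, indexed by the cosets -/
def cj {Γ : Subgroup SL(2, ℤ)} {x : Mer} (hx : ∀ γ ∈ Γ, act γ x = x) : SL(2, ℤ) ⧸ Γ → Mer :=
  Quotient.lift (fun s : SL(2, ℤ) => act s x) (by
    intro s s' e
    have e1 : s⁻¹ * s' ∈ Γ := QuotientGroup.leftRel_apply.1 e
    show act s x = act s' x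
    have h2 := hx _ e1
    have h3 : act s (act (s⁻¹ * s') x) = act s' x := by
      rw [← AlgEquiv.mul_apply, ← map_mul]
      congr 2
      group
    rw [← h3, h2])

theorem cj_mk {Γ : Subgroup SL(2, ℤ)} {x : Mer} (hx : ∀ γ ∈ Γ, act γ x = x) (s : SL(2, ℤ)) :
    cj hx (s : SL(2, ℤ) ⧸ Γ) = act s x := rfl

theorem act_cj {Γ : Subgroup SL(2, ℤ)} {x : Mer} (hx : ∀ γ ∈ Γ, act γ x = x) (γ : SL(2, ℤ))
    (q : SL(2, ℤ) ⧸ Γ) : act γ (cj hx q) = cj hx (γ • q) := by
  induction q using QuotientGroup.induction_on with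
  | H s =>
    rw [MulAction.Quotient.smul_mk, cj_mk, cj_mk, ← AlgEquiv.mul_apply, ← map_mul]
    rfl

theorem exists_monic (Γ : Subgroup SL(2, ℤ)) [Γ.FiniteIndex] {x : Mer} (hx : x ∈ MF Γ) :
    ∃ P : (MF ⊤)[X], P.Monic ∧ P.natDegree = Γ.index ∧ aeval x P = 0 := by
  classical
  let : Fintype (SL(2, ℤ) ⧸ Γ) := Fintype.ofFinite _
  have hfix : ∀ γ ∈ Γ, act γ x = x := fun γ hγ => act_eq_self hx hγ
  set Q : Mer[X] := ∏ q : SL(2, ℤ) ⧸ Γ, (X - C (cj hfix q)) with hQ
  have hQm : Q.Monic := monic_prod_of_monic _ _ fun q _ => monic_X_sub_C _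
  have hQd : Q.natDegree = Γ.index := by
    rw [hQ, natDegree_prod_of_monic _ _ fun q _ => monic_X_sub_C _]
    simp [Subgroup.index, Nat.card_eq_fintype_card]
  have hQx : Q.eval x = 0 := by
    rw [hQ, eval_prod]
    apply Finset.prod_eq_zero (Finset.mem_univ ((1 : SL(2, ℤ)) : SL(2, ℤ) ⧸ Γ))
    rw [cj_mk]
    simp
  -- the coefficients are fixed
  have hQf : ∀ γ : SL(2, ℤ), Q.map ((act γ : Mer ≃ₐ[ℂ] Mer) : Mer →+* Mer) = Q := by
    intro γ
    rw [hQ, Polynomial.map_prod]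
    refine Fintype.prod_equiv (MulAction.toPerm γ) _ _ fun q => ?_
    rw [Polynomial.map_sub, map_X, map_C]
    congr 2
    exact act_cj hfix γ q
  -- the coefficients lie in the field of the normal core
  have hcore : ∀ q, cj hfix q ∈ MF Γ.normalCore := by
    intro q
    induction q using QuotientGroup.induction_on with
    | H s =>
      rw [cj_mk]
      refine act_mem s (fun γ hγ => ?_) hx
      have := (Subgroup.normalCore_normal Γ).conj_mem γ hγ s⁻¹
      rw [inv_inv] at this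
      exact Subgroup.normalCore_le Γ this
  have hQc : ∀ i, Q.coeff i ∈ MF Γ.normalCore := by
    have : Q = (∏ q : SL(2, ℤ) ⧸ Γ, (X - C (⟨cj hfix q, hcore q⟩ : MF Γ.normalCore))).map
        (algebraMap (MF Γ.normalCore) Mer) := by
      rw [hQ, Polynomial.map_prod]
      refine Finset.prod_congr rfl fun q _ => ?_
      rw [Polynomial.map_sub, map_X, map_C]
      rfl
    intro i
    rw [this, coeff_map]
    exact Subtype.prop _
  have hQt : ∀ i, Q.coeff i ∈ MF (⊤ : Subgroup SL(2, ℤ)) := by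
    intro i
    refine mem_MF_of_fixed ⊤ (hQc i) fun γ _ => ?_
    have := congrArg (fun P => P.coeff i) (hQf γ)
    simpa using this
  have hl : Q ∈ lifts (algebraMap (MF (⊤ : Subgroup SL(2, ℤ))) Mer) := by
    rw [lifts_iff_coeff_lifts]
    exact fun i => ⟨⟨_, hQt i⟩, rfl⟩
  obtain ⟨P, hP1, hP2, hP3⟩ := lifts_and_natDegree_eq_and_monic hl hQm
  refine ⟨P, hP3, hP2.trans hQd, ?_⟩
  rw [aeval_def, ← eval_map, hP1, hQx]

theorem abs_finrank_le {F M : Type*} [Field F] [CharZero F] [Field M] [Algebra F M]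
    (L : IntermediateField F M) [FiniteDimensional F L] (n : ℕ)
    (h : ∀ x ∈ L, ∃ P : F[X], P.Monic ∧ P.natDegree = n ∧ aeval x P = 0) :
    Module.finrank F L ≤ n := by
  obtain ⟨α, hα⟩ := Field.exists_primitive_element F L
  rw [Field.primitive_element_iff_minpoly_natDegree_eq] at hα
  rw [← hα]
  obtain ⟨P, hP1, hP2, hP3⟩ := h α α.2
  rw [← hP2]
  apply natDegree_le_natDegree
  apply minpoly.min _ _ hP1
  have h1 : (aeval (α : M) P) = ((aeval α P : L) : M) := by
    have := Polynomial.aeval_algHom_apply L.val α P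
    exact this
  rw [h1] at hP3
  exact Subtype.ext hP3

/-- finite subextensions of `MF Γ / MF ⊤` have degree at most the index -/
theorem finrank_le (Γ : Subgroup SL(2, ℤ)) [Γ.FiniteIndex]
    (L : IntermediateField (MF (⊤ : Subgroup SL(2, ℤ))) Mer) (hL : ∀ x ∈ L, x ∈ MF Γ)
    [FiniteDimensional (MF (⊤ : Subgroup SL(2, ℤ))) L] :
    Module.finrank (MF (⊤ : Subgroup SL(2, ℤ))) L ≤ Γ.index := by
  have : CharZero (MF (⊤ : Subgroup SL(2, ℤ))) := algebraRat.charZero _
  exact abs_finrank_le L Γ.index fun x hx => exists_monic Γ (hL x hx)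

/-- abstract form: if `L₀` is an intermediate field of degree `≥ n` inside a set `S` all whose
elements have degree at most `n`, in a tower closed condition, then `S ⊆ L₀`. -/
theorem abs_mem {F M : Type*} [Field F] [CharZero F] [Field M] [Algebra F M]
    (E L₀ : IntermediateField F M) (h0 : L₀ ≤ E) (n : ℕ) (hn : n ≤ Module.finrank F L₀)
    (hn0 : n ≠ 0)
    (h : ∀ x ∈ E, ∃ P : F[X], P.Monic ∧ P.natDegree = n ∧ aeval x P = 0) : E ≤ L₀ := by
  intro x hx
  have f0 : FiniteDimensional F L₀ := Module.finite_of_finrank_pos (by omega)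
  obtain ⟨P, hP1, hP2, hP3⟩ := h x hx
  have f1 : FiniteDimensional F (IntermediateField.adjoin F {x}) :=
    IntermediateField.adjoin.finiteDimensional ⟨P, hP1, hP3⟩
  have f2 : FiniteDimensional F (L₀ ⊔ IntermediateField.adjoin F {x} : IntermediateField F M) :=
    IntermediateField.finiteDimensional_sup _ _
  have hle : L₀ ⊔ IntermediateField.adjoin F {x} ≤ E :=
    sup_le h0 ((IntermediateField.adjoin_simple_le_iff).2 hx)
  have h3 := abs_finrank_le (L₀ ⊔ IntermediateField.adjoin F {x}) n fun y hy => h y (hle hy)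
  have h4 : L₀ = L₀ ⊔ IntermediateField.adjoin F {x} :=
    IntermediateField.eq_of_le_of_finrank_le le_sup_left (h3.trans hn)
  rw [h4]
  exact (le_sup_right : _ ≤ L₀ ⊔ IntermediateField.adjoin F {x})
    (IntermediateField.mem_adjoin_simple_self F x)

/-- the modular invariant is not constant -/
theorem jM_ne_const (c : ℂ) : jM ≠ algebraMap ℂ Mer c := by
  intro h
  rw [← inc_const c] at h
  have h1 : jf = fun _ => c := inc_injective _ _ h
  -- `E₄ ^ 3 = c Δ`, compare constant terms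
  have h2 : ∀ τ, E₄ τ ^ 3 = c * discriminant τ := by
    intro τ
    rw [E4_pow, h1, mul_comm]
  have h3 : ((E₄.pow 3 : ModularForm 𝒮ℒ ((3 : ℕ) * 4)) : ℍ → ℂ) = c • ⇑CuspForm.discriminant := by
    rw [ModularForm.coe_pow]
    funext τ
    exact h2 τ
  have h4 : (qExpansion 1 (E₄.pow 3 : ModularForm 𝒮ℒ ((3 : ℕ) * 4))).coeff 0 = 1 := by
    rw [ModularForm.qExpansion_pow one_pos one_mem_strictPeriods_SL]
    rw [PowerSeries.coeff_zero_eq_constantCoeff, map_pow,
      ← PowerSeries.coeff_zero_eq_constantCoeff, E_qExpansion_coeff_zero _ ⟨2, rfl⟩, one_pow]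
  rw [h3, ModularForm.qExpansion_smul one_pos one_mem_strictPeriods_SL, PowerSeries.coeff_smul,
    CuspFormClass.qExpansion_coeff_zero CuspForm.discriminant one_pos
      one_mem_strictPeriods_SL] at h4
  simp at h4

/-- an element related to `jM` by coprime polynomials is transcendental -/
theorem transc {p : Mer} {N D : ℂ[X]} (hc : IsCoprime N D) (hj : jM * aeval p D = aeval p N) :
    Transcendental ℂ p := by
  intro hp
  have hint : IsIntegral ℂ p := hp.isIntegral
  obtain ⟨c, hcp⟩ := minpoly.mem_range_of_degree_eq_one ℂ p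
    (IsAlgClosed.degree_eq_one_of_irreducible ℂ (minpoly.irreducible hint))
  rw [← hcp, aeval_algebraMap_apply, aeval_algebraMap_apply, coe_aeval_eq_eval] at hj
  by_cases hD : D.eval c = 0
  · rw [hD, map_zero, mul_zero] at hj
    have hN : N.eval c = 0 := by
      have := (map_eq_zero_iff _ (algebraMap ℂ Mer).injective).1 hj.symm
      exact this
    obtain ⟨a, b, hab⟩ := hc
    have := congrArg (eval c) hab
    simp [hN, hD] at this
  · apply jM_ne_const (N.eval c / D.eval c)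
    have hD' : algebraMap ℂ Mer (D.eval c) ≠ 0 := by
      rw [Ne, map_eq_zero_iff _ (algebraMap ℂ Mer).injective]
      exact hD
    rw [map_div₀, eq_div_iff hD']
    exact hj

theorem coprime_num_denom {N D : ℂ[X]} (hc : IsCoprime N D) (hD : D ≠ 0) :
    (RatFunc.num (algebraMap ℂ[X] (RatFunc ℂ) N / algebraMap ℂ[X] (RatFunc ℂ) D)).natDegree
      = N.natDegree ∧
    (RatFunc.denom (algebraMap ℂ[X] (RatFunc ℂ) N / algebraMap ℂ[X] (RatFunc ℂ) D)).natDegree
      = D.natDegree := by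
  set f := algebraMap ℂ[X] (RatFunc ℂ) N / algebraMap ℂ[X] (RatFunc ℂ) D with hf
  have h1 : f.num * D = N * f.denom := (RatFunc.num_mul_eq_mul_denom_iff hD).2 hf
  have h2 : f.num ∣ N := RatFunc.num_div_dvd N hD
  have h3 : f.denom ∣ D := RatFunc.denom_div_dvd N D
  have h4 : N ∣ f.num := hc.dvd_of_dvd_mul_right (Dvd.intro _ h1.symm)
  have h5 : D ∣ f.denom := hc.symm.dvd_of_dvd_mul_left (Dvd.intro_left _ h1)
  exact ⟨natDegree_eq_natDegree (degree_eq_degree_of_associated (associated_of_dvd_dvd h2 h4)),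
    natDegree_eq_natDegree (degree_eq_degree_of_associated (associated_of_dvd_dvd h3 h5))⟩

/-- **The function field by degrees.** -/
theorem MF_eq_adjoin (Γ : Subgroup SL(2, ℤ)) [Γ.FiniteIndex] {p : Mer} (hp : p ∈ MF Γ)
    {N D : ℂ[X]} (hc : IsCoprime N D) (hj : jM * aeval p D = aeval p N)
    (hdeg : Γ.index ≤ max N.natDegree D.natDegree) : MF Γ = IntermediateField.adjoin ℂ {p} := by
  have ht : Transcendental ℂ p := transc hc hj
  have hinj : Function.Injective (aeval p : ℂ[X] →ₐ[ℂ] Mer) := transcendental_iff_injective.1 ht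
  have hD : D ≠ 0 := by
    rintro rfl
    have h1 : aeval p N = 0 := by rw [← hj]; simp
    have h2 : N = 0 := hinj (by rw [h1, map_zero])
    obtain ⟨a, b, hab⟩ := hc
    rw [h2] at hab
    simp at hab
  have hDp : aeval p D ≠ 0 := fun h => hD (hinj (by rw [h, map_zero]))
  -- the embedding of the rational function field
  let ψ : RatFunc ℂ →ₐ[ℂ] Mer := RatFunc.liftAlgHom (aeval p)
    (nonZeroDivisors_le_comap_nonZeroDivisors_of_injective _ hinj)
  set f : RatFunc ℂ := algebraMap ℂ[X] (RatFunc ℂ) N / algebraMap ℂ[X] (RatFunc ℂ) D with hf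
  have hψf : ψ f = jM := by
    rw [hf, RatFunc.liftAlgHom_apply_div, div_eq_iff hDp, hj]
  have hψX : ψ RatFunc.X = p := by
    have := RatFunc.liftAlgHom_apply_div (aeval p : ℂ[X] →ₐ[ℂ] Mer)
      (nonZeroDivisors_le_comap_nonZeroDivisors_of_injective _ hinj) (X : ℂ[X]) 1
    simpa using this
  have hrange : ψ.fieldRange = IntermediateField.adjoin ℂ {p} := by
    rw [AlgHom.fieldRange_eq_map, ← RatFunc.adjoin_X, IntermediateField.adjoin_map,
      Set.image_singleton, hψX]
  have hmap : (IntermediateField.adjoin ℂ {f}).map ψ = MF ⊤ := by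
    rw [IntermediateField.adjoin_map, Set.image_singleton, hψf, MF_top]
  have hle : MF (⊤ : Subgroup SL(2, ℤ)) ≤ ψ.fieldRange := by
    rw [← hmap, AlgHom.fieldRange_eq_map]
    exact IntermediateField.map_mono ψ le_top
  have hleΓ : ψ.fieldRange ≤ MF Γ := by
    rw [hrange, IntermediateField.adjoin_simple_le_iff]
    exact hp
  -- the degree
  have hfin : Module.finrank (MF (⊤ : Subgroup SL(2, ℤ)))
      (IntermediateField.extendScalars hle) = max N.natDegree D.natDegree := by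
    have h1 := RatFunc.finrank_eq_max_natDegree f
    obtain ⟨h2, h3⟩ := coprime_num_denom hc hD
    rw [← hf] at h2 h3
    rw [h2, h3] at h1
    rw [← h1]
    symm
    let i : IntermediateField.adjoin ℂ {f} ≃+* MF (⊤ : Subgroup SL(2, ℤ)) :=
      (((IntermediateField.adjoin ℂ {f}).equivMap ψ).trans
        (IntermediateField.equivOfEq hmap)).toRingEquiv
    let j : RatFunc ℂ ≃+* IntermediateField.extendScalars hle :=
      (AlgEquiv.ofInjectiveField ψ).toRingEquiv
    refine Algebra.finrank_eq_of_equiv_equiv i j ?_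
    ext a
    rfl
  have hmain := abs_mem (IntermediateField.extendScalars (MF_mono (le_top : Γ ≤ ⊤)))
    (IntermediateField.extendScalars hle) ?_ Γ.index (by rw [hfin]; exact hdeg)
    Subgroup.FiniteIndex.index_ne_zero (fun x hx => exists_monic Γ hx)
  · apply le_antisymm
    · intro x hx
      rw [← hrange]
      exact hmain hx
    · rw [← hrange]
      exact hleΓ
  · intro x hx
    exact hleΓ hx

end Vale.Agent.P022.H218.L3
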