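import Vale.Agent.P022.H218.L3.Deg

/-!
Helper218 (P022, P022-L3, row [FUNCTION FIELD], Galois half).

`Γ' ≤ Γ` of finite index in `SL(2, ℤ)`, `Γ'` normalised by `Γ`, `MF Γ = ℂ⟮p⟯`: then `MF Γ'` is a
finite Galois extension of `ℂ⟮p⟯`, every automorphism is given by an element of `Γ`, and the Galois
group is a `2`-group if every element of `Γ` has a `2`-power power in `Γ'`.
-/

open UpperHalfPlane ModularForm Polynomial CongruenceSubgroup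
open scoped Manifold MatrixGroups ModularForm IntermediateField

noncomputable section

namespace Vale.Agent.P022.H218.L3

section abs

variable {k K : Type*} [Field k] [Field K] [Algebra k K] (H : Subgroup (K ≃ₐ[k] K))
  (F : IntermediateField k K)

theorem abs_isGG (hF : ∀ x, x ∈ F ↔ ∀ g ∈ H, g x = x) : IsGaloisGroup H F K where
  faithful := inferInstance
  commutes := ⟨fun h a x => by
    have h1 : (h : K ≃ₐ[k] K) ((a : K) * x) = (a : K) * (h : K ≃ₐ[k] K) x := by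
      rw [map_mul, (hF a).1 a.2 h h.2]
    exact h1⟩
  isInvariant := ⟨fun b hb => ⟨⟨b, (hF b).2 fun g hg => hb ⟨g, hg⟩⟩, rfl⟩⟩

theorem abs_galois [Finite H] (hF : ∀ x, x ∈ F ↔ ∀ g ∈ H, g x = x) :
    FiniteDimensional F K ∧ IsGalois F K ∧
      (∀ g : K ≃ₐ[F] K, ∃ h ∈ H, ∀ x, g x = h x) ∧
      Module.finrank F K = Nat.card H ∧
      ∀ p : ℕ, IsPGroup p H → IsPGroup p (K ≃ₐ[F] K) := by
  have hGG := abs_isGG H F hF
  refine ⟨IsGaloisGroup.finiteDimensional H F K, IsGaloisGroup.isGalois H F K, fun g => ?_,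
    (IsGaloisGroup.card_eq_finrank H F K).symm, fun p hp => ?_⟩
  · obtain ⟨h, hh⟩ := (IsGaloisGroup.mulEquivAlgEquiv H F K).surjective g
    refine ⟨h, h.2, fun x => ?_⟩
    rw [← hh]
    rfl
  · exact hp.of_equiv (IsGaloisGroup.mulEquivAlgEquiv H F K)

end abs

/-- the action of the normaliser on `MF Γ'` -/
def resAct {Γ Γ' : Subgroup SL(2, ℤ)} (hn : ∀ γ ∈ Γ, ∀ δ ∈ Γ', γ * δ * γ⁻¹ ∈ Γ') :
    Γ →* (MF Γ' ≃ₐ[ℂ] MF Γ') where
  toFun γ :=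
    { toFun := fun x => ⟨act γ x, act_mem (γ : SL(2, ℤ)) (fun δ hδ => by
        have := hn (γ : SL(2, ℤ))⁻¹ (Γ.inv_mem γ.2) δ hδ
        rwa [inv_inv] at this) x.2⟩
      invFun := fun x => ⟨act (γ : SL(2, ℤ))⁻¹ x, act_mem (γ : SL(2, ℤ))⁻¹ (fun δ hδ => by
        have := hn (γ : SL(2, ℤ)) γ.2 δ hδ
        rwa [inv_inv]) x.2⟩
      left_inv := fun x => Subtype.ext (by
        show act (γ : SL(2, ℤ))⁻¹ (act γ x) = x
        rw [← AlgEquiv.mul_apply, ← map_mul, inv_mul_cancel, map_one]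
        rfl)
      right_inv := fun x => Subtype.ext (by
        show act (γ : SL(2, ℤ)) (act (γ : SL(2, ℤ))⁻¹ x) = x
        rw [← AlgEquiv.mul_apply, ← map_mul, mul_inv_cancel, map_one]
        rfl)
      map_mul' := fun x y => Subtype.ext (map_mul (act γ) (x : Mer) y)
      map_add' := fun x y => Subtype.ext (map_add (act γ) (x : Mer) y)
      commutes' := fun c => Subtype.ext ((act γ).commutes c) }
  map_one' := by
    ext x
    show act 1 (x : Mer) = x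
    rw [map_one]
    rfl
  map_mul' γ δ := by
    ext x
    show act (γ * δ) (x : Mer) = act γ (act δ x)
    rw [map_mul]
    rfl

theorem resAct_apply {Γ Γ' : Subgroup SL(2, ℤ)} (hn : ∀ γ ∈ Γ, ∀ δ ∈ Γ', γ * δ * γ⁻¹ ∈ Γ')
    (γ : Γ) (x : MF Γ') : ((resAct hn γ x : MF Γ') : Mer) = act (γ : SL(2, ℤ)) x := rfl

theorem resAct_ker {Γ Γ' : Subgroup SL(2, ℤ)} (hn : ∀ γ ∈ Γ, ∀ δ ∈ Γ', γ * δ * γ⁻¹ ∈ Γ')
    (γ : Γ) (h : (γ : SL(2, ℤ)) ∈ Γ') : resAct hn γ = 1 := by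
  ext x
  show act (γ : SL(2, ℤ)) (x : Mer) = x
  exact act_eq_self x.2 h

theorem finite_range {Γ Γ' : Subgroup SL(2, ℤ)} [Γ'.FiniteIndex]
    (hn : ∀ γ ∈ Γ, ∀ δ ∈ Γ', γ * δ * γ⁻¹ ∈ Γ') : Finite (resAct hn).range := by
  have h1 : Γ'.subgroupOf Γ ≤ (resAct hn).ker := fun γ hγ =>
    resAct_ker hn γ (Subgroup.mem_subgroupOf.1 hγ)
  have : (resAct hn).ker.FiniteIndex := Subgroup.finiteIndex_of_le h1
  exact Finite.of_equiv _ (QuotientGroup.quotientKerEquivRange (resAct hn)).toEquiv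

/-- **`MF Γ' / ℂ(p)` is finite Galois with group a quotient of `Γ / Γ'`.** -/
theorem galois {Γ Γ' : Subgroup SL(2, ℤ)} [Γ'.FiniteIndex]
    (hn : ∀ γ ∈ Γ, ∀ δ ∈ Γ', γ * δ * γ⁻¹ ∈ Γ') (p : MF Γ')
    (hp : MF Γ = IntermediateField.adjoin ℂ {(p : Mer)}) :
    FiniteDimensional ℂ⟮p⟯ (MF Γ') ∧ IsGalois ℂ⟮p⟯ (MF Γ') ∧
      (∀ g : MF Γ' ≃ₐ[ℂ⟮p⟯] MF Γ', ∃ γ ∈ Γ, ∀ x : MF Γ', ((g x : MF Γ') : Mer) = act γ x) ∧
      (∀ γ ∈ Γ, ∃ g : MF Γ' ≃ₐ[ℂ⟮p⟯] MF Γ', ∀ x : MF Γ', ((g x : MF Γ') : Mer) = act γ x) ∧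
      ∀ q : ℕ, (∀ γ ∈ Γ, ∃ k, γ ^ q ^ k ∈ Γ') → IsPGroup q (MF Γ' ≃ₐ[ℂ⟮p⟯] MF Γ') := by
  have hfin := finite_range hn
  have hmem : ∀ x : MF Γ', x ∈ ℂ⟮p⟯ ↔ (x : Mer) ∈ MF Γ := by
    intro x
    have h1 : (ℂ⟮p⟯ : IntermediateField ℂ (MF Γ')).map (MF Γ').val = MF Γ := by
      rw [IntermediateField.adjoin_map, Set.image_singleton, hp]
      rfl
    constructor
    · intro hx
      rw [← h1]
      exact ⟨x, hx, rfl⟩
    · intro hx
      rw [← h1] at hx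
      obtain ⟨y, hy, hyx⟩ := hx
      have : y = x := Subtype.ext hyx
      rwa [← this]
  have hF : ∀ x : MF Γ', x ∈ ℂ⟮p⟯ ↔ ∀ g ∈ (resAct hn).range, g x = x := by
    intro x
    rw [hmem x, mem_MF_iff Γ (x : Mer) x.2]
    constructor
    · rintro h _ ⟨γ, rfl⟩
      exact Subtype.ext (h γ γ.2)
    · intro h γ hγ
      have := h (resAct hn ⟨γ, hγ⟩) ⟨_, rfl⟩
      exact congrArg Subtype.val this
  obtain ⟨h1, h2, h3, -, h5⟩ := abs_galois (resAct hn).range ℂ⟮p⟯ hF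
  refine ⟨h1, h2, fun g => ?_, fun γ hγ => ?_, fun q hq => h5 q ?_⟩
  · obtain ⟨_, ⟨γ, rfl⟩, hg⟩ := h3 g
    exact ⟨γ, γ.2, fun x => by rw [hg]; rfl⟩
  · refine ⟨AlgEquiv.ofRingEquiv (f := (resAct hn ⟨γ, hγ⟩ : MF Γ' ≃ₐ[ℂ] MF Γ').toRingEquiv)
      (fun a => (hF a).1 a.2 _ ⟨_, rfl⟩), fun x => rfl⟩
  · rintro ⟨_, ⟨γ, rfl⟩⟩
    obtain ⟨k, hk⟩ := hq γ γ.2
    refine ⟨k, Subtype.ext ?_⟩
    show (resAct hn γ) ^ q ^ k = 1
    rw [← map_pow]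
    exact resAct_ker hn _ (by simpa using hk)

/-! ### the index of `Γ_0(6)` -/

theorem index_le_of_sep {G α : Type*} [Group G] [Finite α] (H : Subgroup G) (f : G → α)
    (h : ∀ a b, f a = f b → a⁻¹ * b ∈ H) : H.index ≤ Nat.card α := by
  have hinj : Function.Injective (fun q : G ⧸ H => f q.out) := by
    intro q q' e
    have h1 := h _ _ e
    rw [← QuotientGroup.eq, QuotientGroup.out_eq', QuotientGroup.out_eq'] at h1
    exact h1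
  exact Nat.card_le_card_of_injective _ hinj

/-- the point of the projective line of `γ⁻¹` -/
def pl (p : ℕ) [Fact p.Prime] (γ : SL(2, ℤ)) : Option (ZMod p) :=
  if ((γ⁻¹ 1 0 : ℤ) : ZMod p) = 0 then none
    else some (((γ⁻¹ 1 1 : ℤ) : ZMod p) / ((γ⁻¹ 1 0 : ℤ) : ZMod p))

theorem pl_sep (p : ℕ) [Fact p.Prime] (a b : SL(2, ℤ)) (h : pl p a = pl p b) :
    (((a⁻¹ * b) 1 0 : ℤ) : ZMod p) = 0 := by
  have key : (((a⁻¹ * b) 1 0 : ℤ) : ZMod p) =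
      ((a⁻¹ 1 0 : ℤ) : ZMod p) * ((b⁻¹ 1 1 : ℤ) : ZMod p)
        - ((a⁻¹ 1 1 : ℤ) : ZMod p) * ((b⁻¹ 1 0 : ℤ) : ZMod p) := by
    have h1 : ((a⁻¹ * b) 1 0 : ℤ) = a⁻¹ 1 0 * b⁻¹ 1 1 - a⁻¹ 1 1 * b⁻¹ 1 0 := by
      rw [Matrix.SpecialLinearGroup.SL2_inv_expl b]
      simp [Matrix.SpecialLinearGroup.coe_mul, Matrix.mul_apply, Fin.sum_univ_two]
    rw [h1]
    push_cast
    ring
  rw [key]
  unfold pl at h
  split_ifs at h with h1 h2 h2
  · rw [h1, h2]; ring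
  · rw [Option.some.injEq, div_eq_div_iff h1 h2] at h
    linear_combination -h

theorem index_Gamma0_six : (Gamma0 6).index ≤ 12 := by
  have : Fact (Nat.Prime 3) := ⟨by norm_num⟩
  have h := index_le_of_sep (Gamma0 6)
    (fun γ => ((pl 2 γ, pl 3 γ) : Option (ZMod 2) × Option (ZMod 3))) (by
      intro a b h
      rw [Prod.mk.injEq] at h
      have h2 := pl_sep 2 a b h.1
      have h3 := pl_sep 3 a b h.2
      rw [Gamma0_mem]
      rw [ZMod.intCast_zmod_eq_zero_iff_dvd] at h2 h3 ⊢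
      push_cast at h2 h3 ⊢
      omega)
  have hc : Nat.card (Option (ZMod 2) × Option (ZMod 3)) = 12 := by
    rw [Nat.card_prod]
    simp [Nat.card_eq_fintype_card]
  rwa [hc] at h

end Vale.Agent.P022.H218.L3
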