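import Vale.Agent.P022.H218.L3.Gal

/-!
Helper218 (P022, P022-L3, row [HP]): the Hauptmodul `p = (X - Y) / (2 (X + 2 Y))` of `Γ_0(6)`.

`X`, `Y` functions on `ℍ`, forms of weight one for `Γ_1(6)`, both multiplied by the same sign under
every element of `Γ_0(6)`, with `E₄ = 5 X⁴ + 12 X³ Y - 16 X Y³` and
`432 Δ = (X - Y) (X - 2 Y)⁶ (X + Y)³ (X + 2 Y)²`. Then `MF Γ_0(6) = ℂ(p)`.
-/

open UpperHalfPlane ModularForm Polynomial CongruenceSubgroup EisensteinSeries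
open scoped Manifold MatrixGroups ModularForm IntermediateField

noncomputable section

namespace Vale.Agent.P022.H218.L3

/-- `1 + 4 T` -/
def pA : ℂ[X] := 1 + C 4 * X
/-- `1 + 228 T + 48 T² + 64 T³` -/
def pB : ℂ[X] := 1 + C 228 * X + C 48 * X ^ 2 + C 64 * X ^ 3
/-- `8 T - 1` -/
def pL : ℂ[X] := C 8 * X - 1
/-- `T + 1` -/
def pM : ℂ[X] := X + 1
/-- the numerator of `j` -/
def pN : ℂ[X] := pA ^ 3 * pB ^ 3
/-- the denominator of `j` -/
def pD : ℂ[X] := X * pL ^ 6 * pM ^ 3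

theorem pA_deg : pA.natDegree = 1 := by
  unfold pA
  compute_degree!

theorem pB_deg : pB.natDegree = 3 := by
  unfold pB
  compute_degree!

theorem pN_deg : pN.natDegree = 12 := by
  have hA : pA ≠ 0 := fun h => by
    have := pA_deg
    rw [h] at this
    simp at this
  have hB : pB ≠ 0 := fun h => by
    have := pB_deg
    rw [h] at this
    simp at this
  unfold pN
  rw [natDegree_mul (pow_ne_zero _ hA) (pow_ne_zero _ hB), natDegree_pow, natDegree_pow, pA_deg,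
    pB_deg]

theorem cop_AX : IsCoprime pA X := ⟨1, -C 4, by unfold pA; ring⟩

theorem cop_AL : IsCoprime pA pL := ⟨C (2 / 3), -C (1 / 3), by
  have h1 : (C (2 / 3) : ℂ[X]) = 2 * C (1 / 3) := by
    rw [show (2 / 3 : ℂ) = 2 * (1 / 3) by norm_num, C_mul]; rfl
  have h2 : (3 : ℂ[X]) * C (1 / 3) = 1 := by
    rw [show (3 : ℂ[X]) = C 3 by rfl, ← C_mul]; norm_num
  have h4 : (C 4 : ℂ[X]) = 4 := rfl
  have h8 : (C 8 : ℂ[X]) = 8 := rfl
  unfold pA pL
  rw [h1, h4, h8]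
  linear_combination h2⟩

theorem cop_AM : IsCoprime pA pM := ⟨-C (1 / 3), C (4 / 3), by
  have h1 : (C (4 / 3) : ℂ[X]) = 4 * C (1 / 3) := by
    rw [show (4 / 3 : ℂ) = 4 * (1 / 3) by norm_num, C_mul]; rfl
  have h2 : (3 : ℂ[X]) * C (1 / 3) = 1 := by
    rw [show (3 : ℂ[X]) = C 3 by rfl, ← C_mul]; norm_num
  have h4 : (C 4 : ℂ[X]) = 4 := rfl
  unfold pA pM
  rw [h1, h4]
  linear_combination h2⟩

theorem cop_BX : IsCoprime pB X := ⟨1, -(C 228 + C 48 * X + C 64 * X ^ 2), by unfold pB; ring⟩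

theorem cop_BL : IsCoprime pB pL :=
  ⟨C (8 / 243), -(C (1 / 243) * (64 * X ^ 2 + 56 * X + 235)), by
  have h1 : (C (8 / 243) : ℂ[X]) = 8 * C (1 / 243) := by
    rw [show (8 / 243 : ℂ) = 8 * (1 / 243) by norm_num, C_mul]; rfl
  have h2 : (243 : ℂ[X]) * C (1 / 243) = 1 := by
    rw [show (243 : ℂ[X]) = C 243 by rfl, ← C_mul]; norm_num
  have h8 : (C 8 : ℂ[X]) = 8 := rfl
  have h228 : (C 228 : ℂ[X]) = 228 := rfl
  have h48 : (C 48 : ℂ[X]) = 48 := rfl
  have h64 : (C 64 : ℂ[X]) = 64 := rfl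
  unfold pB pL
  rw [h1, h8, h228, h48, h64]
  linear_combination h2⟩

theorem cop_BM : IsCoprime pB pM :=
  ⟨-C (1 / 243), C (1 / 243) * (64 * X ^ 2 - 16 * X + 244), by
  have h2 : (243 : ℂ[X]) * C (1 / 243) = 1 := by
    rw [show (243 : ℂ[X]) = C 243 by rfl, ← C_mul]; norm_num
  have h228 : (C 228 : ℂ[X]) = 228 := rfl
  have h48 : (C 48 : ℂ[X]) = 48 := rfl
  have h64 : (C 64 : ℂ[X]) = 64 := rfl
  unfold pB pM
  rw [h228, h48, h64]
  linear_combination h2⟩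

theorem pND_coprime : IsCoprime pN pD := by
  unfold pN pD
  apply IsCoprime.mul_left
  · apply IsCoprime.pow_left
    exact IsCoprime.mul_right (IsCoprime.mul_right cop_AX cop_AL.pow_right) cop_AM.pow_right
  · apply IsCoprime.pow_left
    exact IsCoprime.mul_right (IsCoprime.mul_right cop_BX cop_BL.pow_right) cop_BM.pow_right

/-- the identity in a field -/
theorem j_identity {K : Type*} [Field K] [CharZero K] [Algebra ℂ K] (x y e d j p : K)
    (hu : x + 2 * y ≠ 0) (hp : p * (2 * (x + 2 * y)) = x - y)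
    (he : e = 5 * x ^ 4 + 12 * x ^ 3 * y - 16 * x * y ^ 3)
    (hd : 432 * d = (x - y) * (x - 2 * y) ^ 6 * (x + y) ^ 3 * (x + 2 * y) ^ 2)
    (hj : j * d = e ^ 3) : j * aeval p pD = aeval p pN := by
  have hC : ∀ a : ℂ, aeval p (C a : ℂ[X]) = algebraMap ℂ K a := fun a => aeval_C p a
  have hN : ∀ n : ℕ, [n.AtLeastTwo] → algebraMap ℂ K (OfNat.ofNat n) = (OfNat.ofNat n : K) := by
    intro n _
    exact map_ofNat (algebraMap ℂ K) n
  have eA : aeval p pA = 1 + 4 * p := by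
    unfold pA
    rw [map_add, map_mul, hC, aeval_X, map_one, hN 4]
  have eB : aeval p pB = 1 + 228 * p + 48 * p ^ 2 + 64 * p ^ 3 := by
    unfold pB
    rw [map_add, map_add, map_add, map_mul, map_mul, map_mul, map_pow, map_pow, hC, hC, hC,
      aeval_X, map_one, hN 228, hN 48, hN 64]
  have eL : aeval p pL = 8 * p - 1 := by
    unfold pL
    rw [map_sub, map_mul, hC, aeval_X, map_one, hN 8]
  have eM : aeval p pM = p + 1 := by
    unfold pM
    rw [map_add, aeval_X, map_one]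
  have h1 : (8 * p - 1) * (x + 2 * y) = 3 * (x - 2 * y) := by linear_combination 4 * hp
  have h2 : (p + 1) * (2 * (x + 2 * y)) = 3 * (x + y) := by linear_combination hp
  have hD : aeval p pD * (x + 2 * y) ^ 12 * 16 = 3 ^ 12 * d * 16 := by
    have e1 : aeval p pD * (x + 2 * y) ^ 12 * 16 =
        (p * (2 * (x + 2 * y))) * ((8 * p - 1) * (x + 2 * y)) ^ 6 *
          ((p + 1) * (2 * (x + 2 * y))) ^ 3 * (x + 2 * y) ^ 2 := by
      unfold pD
      rw [map_mul, map_mul, map_pow, map_pow, aeval_X, eL, eM]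
      ring
    rw [e1, hp, h1, h2]
    linear_combination -(3 ^ 9 : K) * hd
  have h3 : (1 + 4 * p) * (x + 2 * y) = 3 * x := by linear_combination 2 * hp
  have h4 : (1 - 2 * p) * (x + 2 * y) = 3 * y := by linear_combination -hp
  have hE : aeval p pA * aeval p pB * (x + 2 * y) ^ 4 = 81 * e := by
    rw [eA, eB, he]
    have e2 : (1 + 4 * p) * (1 + 228 * p + 48 * p ^ 2 + 64 * p ^ 3) * (x + 2 * y) ^ 4 =
        5 * ((1 + 4 * p) * (x + 2 * y)) ^ 4 +
          12 * ((1 + 4 * p) * (x + 2 * y)) ^ 3 * ((1 - 2 * p) * (x + 2 * y)) -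
            16 * ((1 + 4 * p) * (x + 2 * y)) * ((1 - 2 * p) * (x + 2 * y)) ^ 3 := by
      ring
    rw [e2, h3, h4]
    ring
  have hNN : aeval p pN * (x + 2 * y) ^ 12 = 3 ^ 12 * e ^ 3 := by
    have e3 : aeval p pN * (x + 2 * y) ^ 12 =
        (aeval p pA * aeval p pB * (x + 2 * y) ^ 4) ^ 3 := by
      unfold pN
      rw [map_mul, map_pow, map_pow]
      ring
    rw [e3, hE]
    ring
  have h16 : (16 : K) ≠ 0 := by norm_num
  have hD' : aeval p pD * (x + 2 * y) ^ 12 = 3 ^ 12 * d := mul_right_cancel₀ h16 hD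
  have hu' : (x + 2 * y) ^ 12 ≠ 0 := pow_ne_zero _ hu
  apply mul_right_cancel₀ hu'
  rw [hNN, mul_assoc, hD']
  linear_combination (3 ^ 12 : K) * hj

/-! ### the functions -/

theorem neg_slash_one (γ : SL(2, ℤ)) (f : ℍ → ℂ) : f ∣[(1 : ℤ)] (-γ) = -(f ∣[(1 : ℤ)] γ) := by
  funext τ
  rw [Pi.neg_apply, SL_slash_apply, SL_slash_apply, ModularGroup.SL_neg_smul]
  have h : denom ((-γ : SL(2, ℤ)) : GL (Fin 2) ℝ) τ = -denom (γ : GL (Fin 2) ℝ) τ := by
    simp [denom]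
    ring
  rw [h]
  simp only [zpow_neg, zpow_one]
  rw [inv_neg]
  ring

theorem mem_or_neg_mem {γ : SL(2, ℤ)} (h : γ ∈ Gamma0 6) : γ ∈ Gamma1 6 ∨ -γ ∈ Gamma1 6 := by
  rw [Gamma0_mem] at h
  have hdet := congrArg (Int.cast : ℤ → ZMod 6) (γ.det_coe)
  rw [Matrix.det_fin_two] at hdet
  push_cast at hdet
  rw [h, mul_zero, sub_zero] at hdet
  have h3 : ∀ a d : ZMod 6, a * d = 1 → (a = 1 ∧ d = 1) ∨ (a = -1 ∧ d = -1) := by decide
  rcases h3 _ _ hdet with ⟨ha, hd⟩ | ⟨ha, hd⟩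
  · left
    rw [Gamma1_mem]
    exact ⟨ha, hd, h⟩
  · right
    rw [Gamma1_mem]
    have n00 : (-γ) 0 0 = -(γ 0 0) := by simp
    have n10 : (-γ) 1 0 = -(γ 1 0) := by simp
    have n11 : (-γ) 1 1 = -(γ 1 1) := by simp
    rw [n00, n11, n10]
    push_cast
    rw [ha, hd, h]
    simp

instance : CharZero Mer := charZero_of_injective_algebraMap (algebraMap ℂ Mer).injective

open Classical in
/-- the sign -/
def sg6 (γ : SL(2, ℤ)) : ℂ := if γ ∈ Gamma1 6 then 1 else -1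

theorem sg6_ne (γ : SL(2, ℤ)) : sg6 γ ≠ 0 := by
  unfold sg6
  split_ifs <;> norm_num

theorem law_one {f : ℍ → ℂ} (hf : IsMF (Gamma1 6) 1 f) {γ : SL(2, ℤ)}
    (hγ : γ ∈ Gamma1 6 ∨ -γ ∈ Gamma1 6) : f ∣[(1 : ℤ)] γ = sg6 γ • f := by
  unfold sg6
  split_ifs with h
  · rw [one_smul]; exact hf.slash γ h
  · have h1 := hf.slash _ (hγ.resolve_left h)
    rw [neg_slash_one] at h1
    have h2 := congrArg Neg.neg h1
    rw [neg_neg] at h2
    rw [neg_one_smul]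
    exact h2

/-- **the Hauptmodul of `Γ_0(6)`** -/
theorem hp_field {X Y P : ℍ → ℂ} (hX : IsMF (Gamma1 6) 1 X) (hY : IsMF (Gamma1 6) 1 Y)
    (hP : P ∈ Hol) (hPe : ∀ τ, P τ * (2 * (X τ + 2 * Y τ)) = X τ - Y τ)
    (he : ∀ τ, E₄ τ = 5 * X τ ^ 4 + 12 * X τ ^ 3 * Y τ - 16 * X τ * Y τ ^ 3)
    (hd : ∀ τ, 432 * discriminant τ =
      (X τ - Y τ) * (X τ - 2 * Y τ) ^ 6 * (X τ + Y τ) ^ 3 * (X τ + 2 * Y τ) ^ 2) :
    inc P hP ∈ MF (Gamma0 6) ∧ jM * aeval (inc P hP) pD = aeval (inc P hP) pN ∧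
      MF (Gamma0 6) = IntermediateField.adjoin ℂ {inc P hP} := by
  -- the function `X + 2 Y`
  have hU : IsMF (Gamma1 6) 1 (X + (2 : ℂ) • Y) := hX.add (hY.smul 2)
  have hW : IsMF (Gamma1 6) 1 ((2 : ℂ) • (X + (2 : ℂ) • Y)) := hU.smul 2
  have hV : IsMF (Gamma1 6) 1 (X - Y) := hX.sub hY
  have hU0 : X + (2 : ℂ) • Y ≠ 0 := by
    intro h
    have h1 := congrFun h UpperHalfPlane.I
    have h2 := hd UpperHalfPlane.I
    have h3 : X UpperHalfPlane.I + 2 * Y UpperHalfPlane.I = 0 := h1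
    rw [h3] at h2
    have h4 := discriminant_ne_zero UpperHalfPlane.I
    apply h4
    have : (432 : ℂ) ≠ 0 := by norm_num
    apply mul_left_cancel₀ this
    rw [h2]
    ring
  have hW0 : (2 : ℂ) • (X + (2 : ℂ) • Y) ≠ 0 := by
    intro h
    apply hU0
    have := congrArg (fun f => (1 / 2 : ℂ) • f) h
    simp only [smul_zero, smul_smul] at this
    norm_num at this
    exact this
  set x : Mer := inc X hX.hol with hx
  set y : Mer := inc Y hY.hol with hy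
  have hconst : ∀ (c : ℂ) (f : ℍ → ℂ) (hf : f ∈ Hol) (hcf : c • f ∈ Hol),
      inc (c • f) hcf = algebraMap ℂ Mer c * inc f hf := by
    intro c f hf hcf
    rw [← inc_const c, ← inc_mul (Bdd.const c).1 hf]
    rfl
  have h2 : algebraMap ℂ Mer 2 = 2 := map_ofNat _ 2
  have eU : inc (X + (2 : ℂ) • Y) hU.hol = x + 2 * y := by
    rw [inc_add hX.hol (hY.smul 2).hol, hconst 2 Y hY.hol, h2]
  have eW : inc ((2 : ℂ) • (X + (2 : ℂ) • Y)) hW.hol = 2 * (x + 2 * y) := by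
    rw [hconst 2 _ hU.hol, eU, h2]
  have eV : inc (X - Y) hV.hol = x - y := by
    have h3 : X - Y = X + (-1 : ℂ) • Y := by
      rw [neg_one_smul, sub_eq_add_neg]
    rw [inc_congr hV.hol h3, inc_add hX.hol (hY.smul (-1)).hol, hconst (-1) Y hY.hol]
    rw [map_neg, map_one]
    ring
  have hu : x + 2 * y ≠ 0 := by
    rw [← eU]
    intro h
    exact hU0 ((inc_eq_zero _).1 h)
  have hPW : inc P hP * (2 * (x + 2 * y)) = x - y := by
    rw [← eW, ← eV, ← inc_mul]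
    apply inc_congr
    funext τ
    exact hPe τ
  have hpe : inc P hP = inc (X - Y) hV.hol / inc ((2 : ℂ) • (X + (2 : ℂ) • Y)) hW.hol := by
    rw [eV, eW, eq_div_iff (mul_ne_zero two_ne_zero hu), hPW]
  have hmem1 : inc P hP ∈ MF (Gamma1 6) := ⟨1, _, _, hV, hW, hW0, hpe⟩
  have hmem : inc P hP ∈ MF (Gamma0 6) := by
    refine mem_MF_of_fixed (Gamma0 6) hmem1 fun γ hγ => ?_
    have hγ' := mem_or_neg_mem ((Gamma0 6).inv_mem hγ)
    set ε : ℂ := sg6 γ⁻¹ with hε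
    have hε0 : ε ≠ 0 := sg6_ne _
    have s1 : inc ((X - Y) ∣[(1 : ℤ)] γ⁻¹) (slash_mem hV.hol 1 _) =
        algebraMap ℂ Mer ε * inc (X - Y) hV.hol := by
      rw [← hconst ε _ hV.hol (hV.smul ε).hol]
      exact inc_congr _ (law_one hV hγ')
    have s2 : inc (((2 : ℂ) • (X + (2 : ℂ) • Y)) ∣[(1 : ℤ)] γ⁻¹) (slash_mem hW.hol 1 _) =
        algebraMap ℂ Mer ε * inc ((2 : ℂ) • (X + (2 : ℂ) • Y)) hW.hol := by
      rw [← hconst ε _ hW.hol (hW.smul ε).hol]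
      exact inc_congr _ (law_one hW hγ')
    have hε1 : algebraMap ℂ Mer ε ≠ 0 := by
      rw [Ne, map_eq_zero_iff _ (algebraMap ℂ Mer).injective]
      exact hε0
    rw [hpe, act_div γ 1 hV.hol hW.hol hW0, s1, s2, mul_div_mul_left _ _ hε1]
  -- the identities in `Mer`
  set e : Mer := inc E₄ isMF_E4.hol with hee
  set d : Mer := inc discriminant isMF_disc.hol with hdd
  have hpow : ∀ (f : ℍ → ℂ) (hf : f ∈ Hol) (n : ℕ), inc (f ^ n) (Hol.pow_mem hf n) = inc f hf ^ n := by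
    intro f hf n
    unfold inc
    rw [← map_pow]
    rfl
  -- evaluation of polynomial identities: work in `Hol`
  have he' : e = 5 * x ^ 4 + 12 * x ^ 3 * y - 16 * x * y ^ 3 := by
    have h3 : (⟨E₄, isMF_E4.hol⟩ : Hol) = 5 * (⟨X, hX.hol⟩ : Hol) ^ 4
        + 12 * (⟨X, hX.hol⟩ : Hol) ^ 3 * ⟨Y, hY.hol⟩ - 16 * ⟨X, hX.hol⟩ * (⟨Y, hY.hol⟩ : Hol) ^ 3 := by
      apply Subtype.ext
      funext τ
      exact he τ
    have h4 := congrArg (algebraMap Hol Mer) h3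
    simp only [map_add, map_sub, map_mul, map_pow, map_ofNat] at h4
    exact h4
  have hd' : 432 * d = (x - y) * (x - 2 * y) ^ 6 * (x + y) ^ 3 * (x + 2 * y) ^ 2 := by
    have h3 : (432 : Hol) * (⟨discriminant, isMF_disc.hol⟩ : Hol) =
        ((⟨X, hX.hol⟩ : Hol) - ⟨Y, hY.hol⟩) * ((⟨X, hX.hol⟩ : Hol) - 2 * ⟨Y, hY.hol⟩) ^ 6 *
          ((⟨X, hX.hol⟩ : Hol) + ⟨Y, hY.hol⟩) ^ 3 * ((⟨X, hX.hol⟩ : Hol) + 2 * ⟨Y, hY.hol⟩) ^ 2 := by
      apply Subtype.ext
      funext τ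
      exact hd τ
    have h4 := congrArg (algebraMap Hol Mer) h3
    simp only [map_add, map_sub, map_mul, map_pow, map_ofNat] at h4
    exact h4
  have hj' : jM * d = e ^ 3 := by
    have h3 : (⟨jf, jf_mem⟩ : Hol) * (⟨discriminant, isMF_disc.hol⟩ : Hol) =
        (⟨E₄, isMF_E4.hol⟩ : Hol) ^ 3 := by
      apply Subtype.ext
      funext τ
      show jf τ * discriminant τ = E₄ τ ^ 3
      rw [E4_pow, mul_comm]
    have h4 := congrArg (algebraMap Hol Mer) h3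
    simp only [map_mul, map_pow] at h4
    exact h4
  have hmain := j_identity x y e d jM (inc P hP) hu hPW he' hd' hj'
  refine ⟨hmem, hmain, ?_⟩
  exact MF_eq_adjoin (Gamma0 6) hmem pND_coprime hmain
    (index_Gamma0_six.trans (le_max_of_le_left (by rw [pN_deg])))

end Vale.Agent.P022.H218.L3
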